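import Vale.Agent.P073Y.Gd.Cnt
import Vale.Agent.P073Z.KUHN
import Vale.Agent.P073Z.AVG

/-!
# Selection of the good fine wires; unions of good families
-/

open Set Metric Topology Filter MeasureTheory
open scoped ENNReal NNReal

namespace P073

namespace G2

open Gd

/-- the parameters of one type -/
def one (P : Par) (j : Fin P.N) : Par :=
  { N := 1, T := fun _ => P.T j, m := fun _ => P.m j, K := fun _ => P.K j, ς := P.ς, k₀ := P.k₀,
    n := P.n, w := P.w }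

theorem one_ok {Ω : Set E3} {P : Par} (h : P.Ok Ω) (j : Fin P.N) : (one P j).Ok Ω :=
  ⟨fun _ => h.m_pos j, h.n_pos, fun _ => h.compact j, h.lip, h.pos, fun _ => h.big j,
    fun a b hab => (hab (Subsingleton.elim (α := Fin 1) a b)).elim⟩

theorem good2 : GOOD2 := by
  intro κ₀ hκ
  let θ : ℕ → ℝ := fun b => min (κ₀ (Mb b)) 1 / (64 * ((b : ℝ) + 1))
  have h1 : ∀ b, 0 < θ b ∧ θ b * (64 * ((b : ℝ) + 1)) = min (κ₀ (Mb b)) 1 := fun b =>
    ⟨div_pos (lt_min (hκ _) one_pos) (by positivity), div_mul_cancel₀ _ (by positivity)⟩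
  have h2 : ∀ b, θ b ≤ 1 ∧ θ b * (64 * b) ≤ 1 ∧ θ b * (4 * b) ≤ κ₀ (Mb b) := fun b => by
    obtain ⟨h3, h4⟩ := h1 b
    have h5 := mul_nonneg h3.le (Nat.cast_nonneg (α := ℝ) b)
    refine ⟨?_, ?_, ?_⟩ <;> nlinarith [min_le_left (κ₀ (Mb b)) 1, min_le_right (κ₀ (Mb b)) 1]
  have h3 : ∀ b, 1 ≤ Mb b := fun b => by
    have : (1 : ℝ) ≤ ((b : ℝ) + 1) ^ 3 := one_le_pow₀ (le_add_of_nonneg_left b.cast_nonneg)
    unfold Mb
    linarith
  refine ⟨fun b => (80 * ((b : ℝ) + 1) ^ 2)⁻¹, θ, fun b => Cn b + Mb b, fun b =>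
    ⟨by positivity, (h1 b).1, (h2 b).1, le_add_of_nonneg_of_le (Nat.cast_nonneg _) (h3 b)⟩, ?_⟩
  intro Ω f F P j Q K₀ τ β' β d hP hQ hF hK hβ hτ0 hτ1 hτ hd hp hp' hg
  have hρ := rho_pos hP j
  have h0 : Mb (P.T j).b * P.ρ j ≤ β' :=
    le_trans (mul_le_mul_of_nonneg_right (le_add_of_nonneg_left (Nat.cast_nonneg _)) hρ.le) hp'
  have H : Hy Ω (one P j) (fun _ => K₀) f (fun _ => τ) β' d := by
    refine ⟨one_ok hP j, fun _ => hK, kuhn,
      lt_of_lt_of_le (mul_pos (one_pos.trans_le (h3 _)) hρ) h0,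
      fun _ => ⟨hτ0, ?_, hτ⟩, fun _ => hd, fun _ => ⟨hp, h0⟩⟩
    have h4 : τ ≤ (80 * (((P.T j).b : ℝ) + 1) ^ 2)⁻¹ := hτ1
    rw [← one_div, le_div_iff₀ (by positivity)] at h4
    refine le_trans (mul_le_mul_of_nonneg_left ?_ hτ0) h4
    change 80 * ((P.T j).b : ℝ) ^ 2 ≤ _
    gcongr
    linarith
  have hQ' : Wm Ω (one P j) (0 : Fin 1) Q := ⟨hQ.cvx, hQ.carrier, hQ.sub_box, hQ.fine, hQ.coarse⟩
  obtain ⟨γ, h4, h5⟩ := exists_good (θ := θ) H segv hQ' hF hβ (fun b => (h2 b).2) hg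
  refine ⟨γ, fun i hi => ?_, ?_⟩
  · obtain ⟨h6, h6', h7⟩ := h5 i hi
    refine ⟨h6, h6', fun x hx y hy => (h7 x hx y hy).trans ?_⟩
    have h9 := (le_Mb (b_one P j)).1
    change 40 * ((P.T j).b : ℝ) ^ 2 * τ * _ ≤ _
    gcongr
    nlinarith [Nat.cast_nonneg (α := ℝ) (Cn (P.T j).b), sq_nonneg ((P.T j).b : ℝ)]
  · refine (enc_mono fun i hi => ?_).trans ((count H segv hQ' hF hg ⟨(h1 _).1, (h2 _).1⟩).trans
      (mul_le_mul_left ?_ _))
    · exact ⟨hi.1, fun h => hi.2 (h4 i h)⟩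
    · rw [← ENNReal.ofReal_natCast]
      exact ENNReal.ofReal_le_ofReal (le_add_of_nonneg_right (zero_le_one.trans (h3 _)))

theorem exists_vertex (K : RCx E3) (i : K.ι) : ∃ v, K.dim v = 0 ∧ K.cell v ⊆ K.cell i := by
  induction hn : K.dim i using Nat.strong_induction_on generalizing i with
  | _ n ih =>
    rcases Nat.eq_zero_or_pos n with h0 | h0
    · exact ⟨i, hn.trans h0, Subset.rfl⟩
    · obtain ⟨φ, hφ⟩ := (K.ball i).eq_preimage
      have : Nonempty (Fin (K.dim i)) := ⟨⟨0, hn ▸ h0⟩⟩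
      obtain ⟨y, hy⟩ : (sphere (0 : Fin (K.dim i) → ℝ) 1).Nonempty :=
        NormedSpace.sphere_nonempty.2 zero_le_one
      obtain ⟨j, -, h2, h3⟩ := K.bdry i (φ.invFun y) (hφ ▸ mem_image_of_mem _ hy)
      obtain ⟨v, hv, hs⟩ := ih _ (hn ▸ h3) j rfl
      exact ⟨v, hv, hs.trans (h2.trans (K.bd_subset i))⟩

theorem gsum : GSUM := by
  intro Q f κ₀ β κ _ γ hβ hs
  classical
  have := Fintype.ofFinite κ
  have hu : ∀ k k' i, i ∈ (γ k).G → i ∈ (γ k').G → k = k' := fun k k' i h h' => by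
    by_contra hne
    obtain ⟨v, hv, hvi⟩ := exists_vertex Q i
    obtain ⟨x, hx⟩ := Q.cell_nonempty v
    have h1 := ((γ k).face i h v hvi).1
    have h2 := ((γ k').face i h' v hvi).1
    have h3 := hs k k' hne v h1 v h2 _ ⟨x, hx, rfl⟩ _ ⟨x, hx, rfl⟩
    rw [(γ k).vert v h1 hv hx, (γ k').vert v h2 hv hx, dist_self] at h3
    linarith
  have hc : ∀ i, ∃ (A : E3 →ᵃ[ℝ] E3) (s M : ℝ), ∀ k, i ∈ (γ k).G →
      A = (γ k).A i ∧ s = (γ k).s i ∧ M = (γ k).M i := fun i => by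
    by_cases h : ∃ k, i ∈ (γ k).G
    · obtain ⟨k, hk⟩ := h
      refine ⟨(γ k).A i, (γ k).s i, (γ k).M i, fun k' hk' => ?_⟩
      obtain rfl := hu k k' i hk hk'
      exact ⟨rfl, rfl, rfl⟩
    · exact ⟨0, 0, 0, fun k hk => (h ⟨k, hk⟩).elim⟩
  choose A s M hc using hc
  have hG : ∀ i, i ∈ Finset.univ.biUnion (fun k => (γ k).G) ↔ ∃ k, i ∈ (γ k).G := fun i => by simp
  refine ⟨{ G := Finset.univ.biUnion fun k => (γ k).G, A := A, s := s, M := M, face := ?_,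
            simplex := ?_, vert := ?_, inj := ?_, inter := ?_, pos := ?_, sep := ?_, deg := ?_,
            wire := ?_, far := ?_, ang := ?_ }, hG, fun k i hi => hc i k hi⟩
  · intro i hi l hl
    obtain ⟨k, hk⟩ := (hG i).1 hi
    obtain ⟨h1, h2⟩ := (γ k).face i hk l hl
    obtain ⟨e1, e2, e3⟩ := hc i k hk
    obtain ⟨e4, e5, e6⟩ := hc l k h1
    rw [e1, e2, e3, e4, e5, e6]
    exact ⟨(hG l).2 ⟨k, h1⟩, h2⟩
  · intro i hi
    obtain ⟨k, hk⟩ := (hG i).1 hi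
    exact (γ k).simplex i hk
  · intro i hi
    obtain ⟨k, hk⟩ := (hG i).1 hi
    rw [(hc i k hk).1]
    exact (γ k).vert i hk
  · intro i hi
    obtain ⟨k, hk⟩ := (hG i).1 hi
    rw [(hc i k hk).1]
    exact (γ k).inj i hk
  · intro i hi l hl
    obtain ⟨k, hk⟩ := (hG i).1 hi
    obtain ⟨k', hk'⟩ := (hG l).1 hl
    rw [(hc i k hk).1, (hc l k' hk').1]
    rcases eq_or_ne k k' with rfl | hne
    · exact (γ k).inter i hk l hk'
    · intro y hy
      have h1 := hs k k' hne i hk l hk' y hy.1 y hy.2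
      rw [dist_self] at h1
      linarith
  · intro i hi
    obtain ⟨k, hk⟩ := (hG i).1 hi
    rw [(hc i k hk).2.1, (hc i k hk).2.2]
    exact (γ k).pos i hk
  · intro i hi l hl
    obtain ⟨k, hk⟩ := (hG i).1 hi
    obtain ⟨k', hk'⟩ := (hG l).1 hl
    obtain ⟨e1, e2, e3⟩ := hc i k hk
    obtain ⟨e4, e5, e6⟩ := hc l k' hk'
    rw [e1, e2, e3, e4, e5, e6]
    rcases eq_or_ne k k' with rfl | hne
    · exact (γ k).sep i hk l hk'
    · exact fun _ => hs k k' hne i hk l hk'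
  · intro i hi
    obtain ⟨k, hk⟩ := (hG i).1 hi
    rw [(hc i k hk).2.2]
    exact (γ k).deg i hk
  · intro i hi
    obtain ⟨k, hk⟩ := (hG i).1 hi
    rw [(hc i k hk).2.1, (hc i k hk).2.2]
    exact (γ k).wire i hk
  · intro i hi
    obtain ⟨k, hk⟩ := (hG i).1 hi
    rw [(hc i k hk).1, (hc i k hk).2.1, (hc i k hk).2.2]
    exact (γ k).far i hk
  · intro i hi
    obtain ⟨k, hk⟩ := (hG i).1 hi
    rw [(hc i k hk).1, (hc i k hk).2.1, (hc i k hk).2.2]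
    exact (γ k).ang i hk

end G2

end P073
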