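import Vale.Agent.P073Y.Gd.Xsum
import Vale.Agent.P073Y.Ms.Sk

/-!
# The hypotheses of the selection theorems for the source mesh
-/

open Set Metric Topology Filter MeasureTheory
open scoped ENNReal NNReal

namespace P073

namespace G2

open Gd M2 Vale.Agent.P073.HB

variable {Ω : Set E3} {P : Par} {σ : E3 → ℝ} {𝓒 : Set (ℕ × (Fin 3 → ℤ))} {M₀ : ℝ≥0}
  {Mt : Ty → ℕ → ℝ≥0} {S₀ : Set E3} {S : Ty → ℕ → Set E3}

theorem mesh_box (𝓜 : Mesh2 Ω P σ 𝓒 M₀ Mt S₀ S) (j : Fin P.N) :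
    ∀ z ∈ P.Inner j, ∀ X, IsBox X → X ⊆ ucube z → 𝓜.Q'.Sub (P.nu j ⁻¹' X) :=
  fun z hz X hX hs =>
    let ⟨i, hi⟩ := 𝓜.box_cell j z (P.inner_subset_buf j hz) X hX hs; hi ▸ 𝓜.sub' i

/-- wires with rational ends are good segments -/
theorem wire_good {Q : RCx E3} (hQ : Q.Cvx) (hc : Q.carrier = Ω) {w : E3} {f : E3 → E3}
    {F : E3 → (E3 →L[ℝ] E3)}
    (hr : ∀ i, Q.dim i = 0 → ∀ x ∈ Q.cell i, ∀ k, ∃ q : ℚ, x k = w k + q)
    (h : ∀ x y : E3, segment ℝ x y ⊆ Ω → (∀ k, ∃ q : ℚ, x k = w k + q) →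
      (∀ k, ∃ q : ℚ, y k = w k + q) → GoodSeg f F x (y - x)) :
    ∀ e x y, Q.dim e = 1 → Q.cell e = segment ℝ x y → GoodSeg f F x (y - x) := by
  intro e x y he hs
  have h1 := (edge_ends hQ he hs).2
  obtain ⟨v, hv, hx⟩ := Q.vertex_of_mem_bd he (x := x) (by simp [h1])
  obtain ⟨v', hv', hy⟩ := Q.vertex_of_mem_bd he (x := y) (by simp [h1])
  exact h x y (hs ▸ hc ▸ Q.cell_subset_carrier e) (hr v hv x (by simp [hx]))
    (hr v' hv' y (by simp [hy]))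

end G2

end P073
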