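import Vale.Agent.P073Z.GOOD.Gen
import Vale.Agent.P073Z.SURF.Tent

/-!
# The variation along a subdivided segment
-/

open Set Metric Topology Filter MeasureTheory
open scoped ENNReal NNReal

namespace P073

namespace G2

open Gd

theorem var_cover {T ι : Type} [PseudoEMetricSpace T] (φ : ℝ → T) (l r : ι → ℝ) (S : Finset ι) :
    ∀ u v : ℝ, Icc u v ⊆ ⋃ e ∈ S, Icc (l e) (r e) →
      eVariationOn φ (Icc u v) ≤ ∑ e ∈ S, eVariationOn φ (Icc (l e) (r e)) := by
  classical
  induction S using Finset.strongInduction with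
  | H S ih =>
    intro u v h
    rcases lt_or_ge v u with h0 | h0
    · rw [Icc_eq_empty_of_lt h0, eVariationOn.subsingleton _ subsingleton_empty]
      exact zero_le
    obtain ⟨e, he, h1⟩ := mem_iUnion₂.1 (h ⟨h0, le_rfl⟩)
    rcases le_or_gt (l e) u with h2 | h2
    · exact (eVariationOn.mono _ (Icc_subset_Icc h2 h1.2)).trans
        (Finset.single_le_sum (f := fun e => eVariationOn φ (Icc (l e) (r e)))
          (fun _ _ => zero_le) he)
    have h3 : Icc u (l e) ⊆ ⋃ e' ∈ S.erase e, Icc (l e') (r e') := by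
      rw [← closure_Ico h2.ne]
      refine closure_minimal (fun t ht => ?_)
        (isClosed_biUnion_finset fun _ _ => isClosed_Icc)
      obtain ⟨e', he', h4⟩ := mem_iUnion₂.1 (h ⟨ht.1, ht.2.le.trans h1.1⟩)
      refine mem_iUnion₂.2 ⟨e', Finset.mem_erase.2 ⟨?_, he'⟩, h4⟩
      rintro rfl
      exact ht.2.not_ge h4.1
    have h4 := eVariationOn.Icc_add_Icc φ (s := univ) h2.le h1.1 (mem_univ _)
    simp only [univ_inter] at h4
    rw [← h4, ← Finset.sum_erase_add _ _ he]
    exact add_le_add (ih _ (Finset.erase_ssubset he) _ _ h3)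
      (eVariationOn.mono _ (Icc_subset_Icc_right h1.2))

theorem segVar_le_lip {T : Type} [PseudoEMetricSpace T] {h : E3 → T} {x y : E3} {c : ℝ≥0∞}
    (H : ∀ s ∈ Icc (0 : ℝ) 1, ∀ t ∈ Icc (0 : ℝ) 1,
      edist (h (AffineMap.lineMap x y s)) (h (AffineMap.lineMap x y t)) ≤ c * edist s t) :
    segVar h x y ≤ c := by
  rcases eq_or_ne c ⊤ with rfl | hc
  · exact le_top
  lift c to ℝ≥0 using hc
  have h1 : LipschitzOnWith c (fun s : ℝ => h (AffineMap.lineMap x y s)) (Icc 0 1) :=
    fun s hs t ht => H s hs t ht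
  have h3 := h1.comp_eVariationOn_le (g := id) (s := Icc (0:ℝ) 1) (mapsTo_id _)
  have h4 := (monotone_id (α := ℝ)).monotoneOn (Icc (0:ℝ) 1) |>.eVariationOn_eq
    (left_mem_Icc.2 zero_le_one) (right_mem_Icc.2 zero_le_one)
  rw [inter_self] at h4
  refine h3.trans ((mul_le_mul_right h4.le _).trans ?_)
  simp

theorem edist_line (x y : E3) (s t : ℝ) :
    edist (AffineMap.lineMap x y s) (AffineMap.lineMap x y t) = edist x y * edist s t := by
  rw [edist_nndist, edist_nndist, edist_nndist, nndist_lineMap_lineMap, ENNReal.coe_mul, mul_comm]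

theorem segVar_speed {T : Type} [PseudoEMetricSpace T] {h : E3 → T} {x y : E3} {c : ℝ≥0∞}
    (hxy : x ≠ y) (H : ∀ u ∈ segment ℝ x y, ∀ w ∈ segment ℝ x y,
      edist (h u) (h w) * edist x y ≤ c * edist u w) : segVar h x y ≤ c :=
  segVar_le_lip fun s hs t ht => by
    have h2 := H _ (lineMap_mem_segment ℝ x y hs) _ (lineMap_mem_segment ℝ x y ht)
    rw [edist_line, mul_comm (edist x y), ← mul_assoc] at h2
    exact (ENNReal.mul_le_mul_iff_left (edist_pos.2 hxy).ne' (edist_ne_top x y)).1 h2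

variable {T : Type} [NormedAddCommGroup T] [NormedSpace ℝ T]

omit [NormedSpace ℝ T] in
theorem segVar_add (g h : E3 → T) (x y : E3) :
    segVar (fun u => g u + h u) x y ≤ segVar g x y + segVar h x y := by
  refine iSup_le fun p => ?_
  refine (Finset.sum_le_sum fun i _ => edist_add_add_le _ _ _ _).trans ?_
  rw [Finset.sum_add_distrib]
  exact add_le_add (eVariationOn.sum_le (f := fun s : ℝ => g (AffineMap.lineMap x y s))
    p.2.2.1 p.2.2.2) (eVariationOn.sum_le (f := fun s : ℝ => h (AffineMap.lineMap x y s))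
    p.2.2.1 p.2.2.2)

theorem segVar_lin (A : E3 →L[ℝ] T) (x y : E3) : segVar A x y ≤ ‖A (y - x)‖ₑ :=
  segVar_le_lip fun s _ t _ => by
    rw [edist_eq_enorm_sub, ← map_sub, edist_eq_enorm_sub, mul_comm, ← enorm_smul, ← map_smul]
    refine (congrArg (fun u => ‖A u‖ₑ) ?_).le
    simp only [AffineMap.lineMap_apply_module']
    module

/-- subtracting a linear map -/
theorem segVar_sub_le (g : E3 → T) (A : E3 →L[ℝ] T) (x y : E3) :
    segVar (fun u => g u - A u) x y ≤ segVar g x y + ‖A (y - x)‖ₑ := by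
  have h1 := segVar_add g (-A : E3 →L[ℝ] T) x y
  have h2 := segVar_lin (-A) x y
  simp only [neg_apply, enorm_neg] at h1 h2
  simp only [sub_eq_add_neg (g _)]
  exact h1.trans (add_le_add_right h2 _)

/-- the variation of a linear image of `g` when `g - A` has small variation -/
theorem segVar_comp_le' (g : E3 → E3) (A : E3 →L[ℝ] E3) (ℓ : E3 →L[ℝ] T) (x y : E3) :
    segVar (fun u => ℓ (g u)) x y ≤
      ‖ℓ (A (y - x))‖ₑ + ‖ℓ‖ₑ * segVar (fun u => g u - A u) x y := by
  have h1 := segVar_add (ℓ.comp A) (ℓ ∘ fun u => g u - A u) x y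
  have h2 : (fun u => (ℓ.comp A) u + (ℓ ∘ fun u => g u - A u) u) = fun u => ℓ (g u) := by
    funext u
    simp
  rw [h2] at h1
  exact h1.trans (add_le_add (segVar_lin _ x y)
    (segVar_comp_le ℓ.lipschitz.lipschitzOnWith (mapsTo_univ _ _)))

/-- the rise of `g` when `g - A` has small variation -/
theorem rise_le (g : E3 → T) (A : E3 →L[ℝ] T) (x y : E3) :
    ‖g y - g x - A (y - x)‖ₑ ≤ segVar (fun u => g u - A u) x y := by
  refine le_trans (le_of_eq ?_) (edist_le_segVar (fun u => g u - A u) (right_mem_segment ℝ x y)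
    (left_mem_segment ℝ x y))
  rw [edist_eq_enorm_sub, map_sub]
  congr 1
  abel

theorem dim_seg {Q : RCx E3} (hQ : Q.Cvx) {e : Q.ι} {x y : E3} (h : Q.cell e = segment ℝ x y)
    (hxy : x ≠ y) : Q.dim e = 1 := by
  rw [(hQ e).2.2, h, ← convexHull_pair, ← direction_affineSpan, affineSpan_convexHull,
    direction_affineSpan, vectorSpan_pair]
  exact finrank_span_singleton (vsub_ne_zero.2 hxy)

theorem seg_compact (a c : E3) : IsCompact (segment ℝ a c) := by
  rw [segment_eq_image_lineMap]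
  exact isCompact_Icc.image AffineMap.lineMap_continuous

theorem seg_fin {Q : RCx E3} {a c : E3} (hs : Q.Sub (segment ℝ a c)) :
    {e | Q.cell e ⊆ segment ℝ a c}.Finite :=
  Q.finite_subset (seg_compact a c) fun x hx =>
    let ⟨i, hi, _⟩ := hs x hx; Q.cell_subset_carrier i hi

/-- the variation along a subdivided segment is at most the sum over its wires -/
theorem seg_sum {T : Type} [PseudoEMetricSpace T] {Q : RCx E3} (hQ : Q.Cvx) {a c : E3}
    (hs : Q.Sub (segment ℝ a c)) (φ : E3 → T) (V : Q.ι → ℝ≥0∞) (s : Finset Q.ι)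
    (hV : ∀ e x y, Q.dim e = 1 → Q.cell e = segment ℝ x y → Q.cell e ⊆ segment ℝ a c →
      e ∈ s ∧ segVar φ x y ≤ V e) : segVar φ a c ≤ ∑ e ∈ s, V e := by
  classical
  rcases eq_or_ne a c with rfl | hac
  · rw [segVar_self]
    exact zero_le
  have hinj := AffineMap.lineMap_injective ℝ hac
  have h1 : ∀ e, ∃ l r : ℝ, Q.cell e ⊆ segment ℝ a c → l ≤ r ∧
      (AffineMap.lineMap a c : ℝ →ᵃ[ℝ] E3) ⁻¹' Q.cell e = Icc l r := fun e => by
    by_cases he : Q.cell e ⊆ segment ℝ a c
    swap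
    · exact ⟨0, 0, fun h => absurd h he⟩
    have h2 : (AffineMap.lineMap a c : ℝ →ᵃ[ℝ] E3) ⁻¹' Q.cell e ⊆ Icc 0 1 := fun t ht => by
      have h3 := he ht
      rw [segment_eq_image_lineMap] at h3
      obtain ⟨t', h4, h5⟩ := h3
      exact hinj h5 ▸ h4
    have h3 : IsCompact ((AffineMap.lineMap a c : ℝ →ᵃ[ℝ] E3) ⁻¹' Q.cell e) :=
      isCompact_Icc.of_isClosed_subset
        ((Q.isClosed_cell e).preimage AffineMap.lineMap_continuous) h2
    have h4 : ((AffineMap.lineMap a c : ℝ →ᵃ[ℝ] E3) ⁻¹' Q.cell e).Nonempty := by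
      obtain ⟨x, hx⟩ := Q.cell_nonempty e
      have h5 := he hx
      rw [segment_eq_image_lineMap] at h5
      obtain ⟨t, -, rfl⟩ := h5
      exact ⟨t, hx⟩
    have h5 := eq_Icc_of_connected_compact (((hQ e).1.affine_preimage _).isConnected h4) h3
    exact ⟨_, _, fun _ => ⟨nonempty_Icc.1 (h5 ▸ h4), h5⟩⟩
  choose l r h1 using h1
  obtain ⟨S, hS⟩ := (seg_fin hs).exists_finset_coe
  have hS' : ∀ e, e ∈ S ↔ Q.cell e ⊆ segment ℝ a c := fun e => Set.ext_iff.1 hS e
  refine (var_cover _ l r S 0 1 fun t ht => ?_).trans ?_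
  · obtain ⟨e, h2, h3⟩ := hs _ (lineMap_mem_segment ℝ a c ht)
    exact mem_iUnion₂.2 ⟨e, (hS' e).2 h3, (h1 e h3).2 ▸ h2⟩
  refine (Finset.sum_le_sum (g := fun e => if e ∈ s then V e else 0) fun e he => ?_).trans ?_
  · obtain ⟨h2, h3⟩ := h1 e ((hS' e).1 he)
    rw [← SF.Tn.segVar_eq φ a c h2]
    rcases h2.eq_or_lt with h4 | h4
    · rw [h4, segVar_self]
      exact zero_le
    have h5 : Q.cell e = segment ℝ (AffineMap.lineMap a c (l e)) (AffineMap.lineMap a c (r e)) := by
      rw [← image_segment, segment_eq_Icc h2, ← h3, image_preimage_eq_of_subset]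
      refine ((hS' e).1 he).trans ?_
      rw [segment_eq_image_lineMap]
      exact image_subset_range _ _
    obtain ⟨h6, h7⟩ := hV e _ _ (dim_seg hQ h5 (hinj.ne h4.ne)) h5 ((hS' e).1 he)
    rwa [if_pos h6]
  · rw [Finset.sum_ite_mem]
    exact Finset.sum_le_sum_of_subset Finset.inter_subset_right

end G2

end P073
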