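import Vale.Agent.P073Y.Gd.Good2
import Vale.Agent.P073Y.Gd.Var

/-!
# Sharp variation along unions of fine wires
-/

open Set Metric Topology Filter MeasureTheory
open scoped ENNReal NNReal

namespace P073

namespace G2

open Gd Vale.Agent.P073.HB

variable {Ω : Set E3} {P : Par} {j : Fin P.N} {Q : RCx E3}
  {f g : E3 → E3} {F : E3 → (E3 →L[ℝ] E3)}

theorem fine_len (h : P.Ok Ω) (hQ : Wm Ω P j Q) {i : Q.ι} (hf : Q.cell i ⊆ Fine1 P j) {x y : E3}
    (hx : x ∈ Q.cell i) (hy : y ∈ Q.cell i) : ‖x - y‖ ≤ (P.T j).b * P.ρ j := by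
  obtain ⟨t, ht⟩ := fine_cell kuhn h hQ hf
  have h0 := rho_pos h j
  exact ((ht.flat x hx y hy).norm_le h).trans
    (mul_le_of_le_one_right (by positivity) (ht.near x hx y hy))

theorem fine_var (h : P.Ok Ω) (hQ : Wm Ω P j Q) (hF : Measurable F) {e : Q.ι} {x y : E3}
    (hs : Q.cell e = segment ℝ x y) (hf : Q.cell e ⊆ Fine1 P j) (hg : GoodSeg f F x (y - x)) :
    segVar f x y ≤ ∫⁻ z in Q.cell e, ‖F z - (P.T j).A‖ₑ ∂(μH[1]) +
      ENNReal.ofReal (((P.T j).b : ℝ) ^ 2 * P.ρ j) ∧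
    ‖(P.T j).A (y - x)‖ₑ ≤ ENNReal.ofReal (((P.T j).b : ℝ) ^ 2 * P.ρ j) := by
  have h0 := rho_pos h j
  have h4 := fine_len h hQ hf (hs ▸ right_mem_segment ℝ x y) (hs ▸ left_mem_segment ℝ x y)
  constructor
  · rw [hs]
    refine (segVar_le segv hF hg).trans ((lintegral_mono
      (g := fun z => ‖F z - (P.T j).A‖ₑ + ‖(P.T j).A‖ₑ) fun z => ?_).trans ?_)
    · simpa using enorm_add_le (F z - (P.T j).A) (P.T j).A
    · rw [lintegral_add_right _ measurable_const, setLIntegral_const, hausdorffMeasure_segment,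
        edist_dist, ← ofReal_norm, ← ENNReal.ofReal_mul (norm_nonneg _), dist_eq_norm', sq,
        mul_assoc]
      gcongr
      exact (P.T j).normA
  · rw [← ofReal_norm, sq, mul_assoc]
    exact ENNReal.ofReal_le_ofReal ((norm_A _ _).trans (by gcongr))

/-- the wires inside a subdivided segment -/
theorem exists_wires {a c : E3} (hs : Q.Sub (segment ℝ a c)) :
    ∃ E : Finset Q.ι, ∀ e, e ∈ E ↔ Q.dim e = 1 ∧ Q.cell e ⊆ segment ℝ a c :=
  ⟨((seg_fin hs).subset (by exact fun e he => he.2)).toFinset, fun _ => Finite.mem_toFinset _⟩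

theorem sum_eta (s : Finset Q.ι) (η : Q.ι → ℝ≥0∞) {X : Set E3} (h : ∀ e ∈ s, Q.cell e ⊆ X) :
    ∑ e ∈ s, η e ≤ ∑' e, {e | Q.cell e ⊆ X}.indicator η e :=
  le_trans (Finset.sum_le_sum fun e he => (indicator_of_mem (by exact h e he) η).ge)
    (ENNReal.sum_le_tsum s)

theorem sum_int (s : Finset Q.ι) (u : E3 → ℝ≥0∞) {X : Set E3}
    (h : ∀ e ∈ s, Q.dim e = 1 ∧ Q.cell e ⊆ X) :
    ∑ e ∈ s, ∫⁻ z in Q.cell e, u z ∂(μH[1]) ≤ ∫⁻ z in X, u z ∂(μH[1]) := by
  have h1 := sum_lintegral_le Q s (fun e he => (h e he).1) X u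
  rwa [Finset.sum_congr rfl fun e he => by rw [inter_eq_left.2 (h e he).2]] at h1

/-- the variation on a subdivided segment from the variations on its wires -/
theorem subw (hQ : Q.Cvx) (hF : Measurable F) {a c : E3} (hs : Q.Sub (segment ℝ a c))
    {K₂ : ℝ≥0∞} {η : Q.ι → ℝ≥0∞}
    (hg : ∀ e x y, Q.dim e = 1 → Q.cell e = segment ℝ x y → GoodSeg f F x (y - x))
    (hv : ∀ e x y, Q.dim e = 1 → Q.cell e = segment ℝ x y →
      segVar g x y ≤ K₂ * segVar f x y + η e) :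
    segVar g a c ≤ K₂ * (∫⁻ z in segment ℝ a c, ‖F z‖ₑ ∂(μH[1])) +
      ∑' e, {e | Q.cell e ⊆ segment ℝ a c}.indicator η e := by
  obtain ⟨E, hE⟩ := exists_wires hs
  refine (seg_sum hQ hs g (fun e => K₂ * (∫⁻ z in Q.cell e, ‖F z‖ₑ ∂(μH[1])) + η e) E
    fun e x y he hxy hsub => ⟨(hE e).2 ⟨he, hsub⟩, (hv e x y he hxy).trans ?_⟩).trans ?_
  · rw [hxy]
    gcongr
    exact segVar_le segv hF (hg e x y he hxy)
  · rw [Finset.sum_add_distrib, ← Finset.mul_sum]
    exact add_le_add (mul_le_mul_right (sum_int E _ fun e => (hE e).1) _)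
      (sum_eta E η fun e he => ((hE e).1 he).2)

/-- the statement `SHARPW` with bounds for the variations instead of the speeds -/
theorem sharpv (G : Set Q.ι) {κ : Type} (s : Finset κ) (a c : κ → E3) {t : ℝ} {K₂ : ℝ≥0∞}
    (η : Q.ι → ℝ≥0∞) (h : P.Ok Ω) (hQ : Wm Ω P j Q) (hF : Measurable F) (ht : 0 ≤ t)
    (hg : ∀ e x y, Q.dim e = 1 → Q.cell e = segment ℝ x y → GoodSeg f F x (y - x))
    (hG : ∀ i ∈ G, Q.cell i ⊆ Fine1 P j → ∀ x ∈ Q.cell i, ∀ y ∈ Q.cell i,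
      ‖g y - g x - (P.T j).A (y - x)‖ ≤ t * ‖y - x‖)
    (hv : ∀ e x y, Q.dim e = 1 → Q.cell e = segment ℝ x y →
      segVar g x y ≤ K₂ * segVar f x y + η e)
    (hs : ∀ k ∈ s, segment ℝ (a k) (c k) ⊆ Fine1 P j ∧ Q.Sub (segment ℝ (a k) (c k)))
    (hd : ∀ k ∈ s, ∀ k' ∈ s, k ≠ k' →
      (segment ℝ (a k) (c k) ∩ segment ℝ (a k') (c k')).Finite) :
    ∑ k ∈ s, segVar (fun x => g x - (P.T j).A x) (a k) (c k) ≤
      ENNReal.ofReal t * ∑ k ∈ s, edist (a k) (c k) +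
      K₂ * (∫⁻ x in Fine1 P j, ‖F x - (P.T j).A‖ₑ ∂(μH[1])) +
      (K₂ + 1) * ENNReal.ofReal ((P.T j).b ^ 2 * P.ρ j) *
        ({i | Q.cell i ⊆ Fine1 P j ∧ i ∉ G}.encard : ℝ≥0∞) +
      ∑' e, {e | Q.cell e ⊆ Fine1 P j}.indicator η e := by
  classical
  have h1 : ∀ k, ∃ E : Finset Q.ι, k ∈ s →
      ∀ e, e ∈ E ↔ Q.dim e = 1 ∧ Q.cell e ⊆ segment ℝ (a k) (c k) := fun k => by
    by_cases hk : k ∈ s
    · obtain ⟨E, hE⟩ := exists_wires (hs k hk).2
      exact ⟨E, fun _ => hE⟩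
    · exact ⟨∅, fun h => absurd h hk⟩
  choose E hE using h1
  set B := ENNReal.ofReal (((P.T j).b : ℝ) ^ 2 * P.ρ j)
  let V : Q.ι → ℝ≥0∞ := fun e => K₂ * (∫⁻ z in Q.cell e, ‖F z - (P.T j).A‖ₑ ∂(μH[1])) +
    (if e ∉ G then (K₂ + 1) * B else 0) + η e
  have h2 : ∀ k ∈ s, segVar (fun x => g x - (P.T j).A x) (a k) (c k) ≤
      ENNReal.ofReal t * edist (a k) (c k) + ∑ e ∈ E k, V e := fun k hk => by
    refine (seg_sum hQ.cvx (hs k hk).2 _
      (fun e => ENNReal.ofReal t * (∫⁻ _ in Q.cell e, 1 ∂(μH[1])) + V e) (E k)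
      fun e x y he hxy hsub => ⟨(hE k hk e).2 ⟨he, hsub⟩, ?_⟩).trans ?_
    · have h3 := hsub.trans (hs k hk).1
      by_cases h4 : e ∈ G
      · refine le_trans (segVar_le_lip fun u hu w hw => ?_) le_self_add
        have h5 := hG e h4 h3 _ (hxy ▸ lineMap_mem_segment ℝ x y hw) _
          (hxy ▸ lineMap_mem_segment ℝ x y hu)
        rw [setLIntegral_one, hxy, hausdorffMeasure_segment, mul_assoc, ← edist_line]
        generalize AffineMap.lineMap x y u = p at h5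
        generalize AffineMap.lineMap x y w = q at h5
        rw [edist_dist, edist_dist, ← ENNReal.ofReal_mul ht, dist_eq_norm, dist_eq_norm]
        refine ENNReal.ofReal_le_ofReal (le_trans (le_of_eq ?_) h5)
        rw [map_sub]
        congr 1
        abel
      · obtain ⟨h5, h6⟩ := fine_var h hQ hF hxy h3 (hg e x y he hxy)
        refine le_trans ((segVar_sub_le _ _ x y).trans ((add_le_add ((hv e x y he hxy).trans
          (add_le_add_left (mul_le_mul_right h5 _) _)) h6).trans_eq ?_)) le_add_self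
        simp only [V, if_pos h4]
        ring
    · rw [Finset.sum_add_distrib, ← Finset.mul_sum]
      gcongr
      refine (sum_int (E k) _ fun e => (hE k hk e).1).trans ?_
      rw [setLIntegral_one, hausdorffMeasure_segment]
  have h3 : (s : Set κ).PairwiseDisjoint E := fun k hk k' hk' hne =>
    Finset.disjoint_left.2 fun e he he' => by
      obtain ⟨h4, h5⟩ := (hE k hk e).1 he
      obtain ⟨x, y, -, -, h6, h7, -⟩ := hQ.cvx.exists_segment h4
      have h8 := (hd k hk k' hk' hne).subset (subset_inter h5 ((hE k' hk' e).1 he').2)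
      rw [h7, segment_eq_image_lineMap] at h8
      exact (Icc_infinite zero_lt_one)
        (h8.of_finite_image (AffineMap.lineMap_injective ℝ h6).injOn)
  have h4 : ∀ e ∈ s.biUnion E, Q.dim e = 1 ∧ Q.cell e ⊆ Fine1 P j := fun e he => by
    obtain ⟨k, hk, h5⟩ := Finset.mem_biUnion.1 he
    exact ⟨((hE k hk e).1 h5).1, ((hE k hk e).1 h5).2.trans (hs k hk).1⟩
  refine (Finset.sum_le_sum h2).trans ?_
  rw [Finset.sum_add_distrib, ← Finset.mul_sum, ← Finset.sum_biUnion h3, add_assoc, add_assoc,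
    ← add_assoc (K₂ * _)]
  simp only [V, Finset.sum_add_distrib, ← Finset.mul_sum]
  gcongr
  · exact sum_int _ _ h4
  · rw [← Finset.sum_filter, Finset.sum_const, nsmul_eq_mul, mul_comm]
    gcongr
    refine le_trans (le_of_eq ?_) (enc_mono (s := ((s.biUnion E).filter (· ∉ G) : Finset Q.ι))
      fun e he => ?_)
    · rw [encard_coe_eq_coe_finsetCard]
      rfl
    · have h5 := Finset.mem_filter.1 he
      exact ⟨(h4 e h5.1).2, h5.2⟩
  · exact sum_eta _ η fun e he => (h4 e he).2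

theorem sharpw : SHARPW := by
  intro Ω f g F P j Q G κ s a c t K₂ η h hQ hF ht hg hG hv hs hd
  exact sharpv G s a c η h hQ hF ht hg hG (fun e x y he hxy => segVar_speed
    (edge_ends hQ.cvx he hxy).1 fun u hu w hw => hv e x y he hxy u (hxy ▸ hu) w (hxy ▸ hw)) hs hd

theorem boxk : BOXK := by
  rintro n _ hn ⟨lo, hi, h, rfl⟩ hX
  have h0 : ∀ i, (lo i : ℝ) ≤ hi i ∧ (hi i : ℝ) ≤ lo i + 1 := fun i => by
    rcases h i with h1 | h1 <;> simp [h1]
  let ζ : E3 := fun i => ((lo i : ℝ) + hi i) / 2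
  have hζ : ζ ∈ Icc (fun i => (lo i : ℝ)) (fun i => (hi i : ℝ)) :=
    ⟨fun i => by simp only [ζ]; linarith [(h0 i).1], fun i => by simp only [ζ]; linarith [(h0 i).1]⟩
  obtain ⟨k, hk⟩ := hX ζ hζ
  have hn' : (n : ℝ) ≠ 0 := by positivity
  have h1 : ∀ i, i ≠ k → hi i = lo i := fun i hik => by
    obtain ⟨m, hm⟩ := hk i hik
    refine (h i).resolve_right fun h2 => ?_
    simp only [ζ, Pi.smul_apply, smul_eq_mul, h2] at hm
    rw [inv_mul_eq_iff_eq_mul₀ hn'] at hm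
    have h3 : (lo i + (lo i + 1) : ℤ) = 2 * (n * m) := by
      have h4 : ((lo i + (lo i + 1) : ℤ) : ℝ) = ((2 * (n * m) : ℤ) : ℝ) := by
        push_cast at hm ⊢
        linarith
      exact_mod_cast h4
    omega
  have k1 : ∀ {m l : ℤ} {u : ℝ}, (m : ℝ) ≤ u → u < l + 1 → (m : ℝ) ≤ l := fun {m l u} a b => by
    have : (m : ℝ) < l + 1 := a.trans_lt b
    exact_mod_cast Int.lt_add_one_iff.1 (by exact_mod_cast this)
  have k2 : ∀ {m l : ℤ} {u : ℝ}, u ≤ (m : ℝ) → (l : ℝ) - 1 < u → (l : ℝ) ≤ m := fun {m l u} a b =>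
    k1 (u := l) le_rfl (by linarith)
  refine ⟨ζ, Subset.antisymm (fun ξ hξ => ⟨fun i m => ⟨fun h2 => ?_, fun h2 => ?_⟩,
    fun i l m => ?_⟩) fun ξ hξ => ⟨fun i => (hξ.1 i (lo i)).1 (hζ.1 i),
      fun i => (hξ.1 i (hi i)).2 (hζ.2 i)⟩⟩
  · exact (k1 (l := lo i) h2 (by simp only [ζ]; linarith [(h0 i).2])).trans (hξ.1 i)
  · exact (hξ.2 i).trans (k2 (l := hi i) h2 (by simp only [ζ]; linarith [(h0 i).2]))
  · have a1 := hξ.1 i
    have a2 := hξ.2 i
    have a3 := hξ.1 l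
    have a4 := hξ.2 l
    have a5 := h0 i
    have a6 := h0 l
    simp only [ζ] at a1 a2 a3 a4 ⊢
    rcases eq_or_ne i l with rfl | hil
    · simp
    have a7 : (hi i : ℝ) - lo i + (hi l - lo l) ≤ 1 := by
      rcases eq_or_ne i k with rfl | hik
      · rw [h1 l hil.symm]
        linarith [a5.2]
      · rw [h1 i hik]
        linarith [a6.2]
    constructor
    · intro h2
      have h3 := k1 (l := lo i - hi l) h2 (by push_cast; linarith)
      push_cast at h3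
      linarith
    · intro h2
      have h3 := k2 (l := hi i - lo l) h2 (by push_cast; linarith)
      push_cast at h3
      linarith

end G2

end P073
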