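import Vale.Agent.P073Y.Gd.Sk
import Vale.Agent.P073Z.ACC.Mean

/-!
# Means over the shift in a large ball
-/

open Set Metric Topology Filter MeasureTheory
open scoped ENNReal NNReal

namespace P073

namespace G2

open Dens Mn

/-- a density at a small scale gives a density at a large scale -/
theorem dens_up {μ : Measure E3} {S : Set E3} {η R D : ℝ} (hη : 0 < η) (hR : η ≤ R)
    (h : ∀ y, μ (S ∩ closedBall y η) ≤ ENNReal.ofReal D) (y : E3) :
    μ (S ∩ closedBall y R) ≤ ENNReal.ofReal (27 * (R / η) ^ 3 * D) := by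
  obtain ⟨t, h1, h2⟩ := exists_finset (c := fun _ => 2 * η) (fun _ => by positivity) y
    (R := R + η) (by linarith)
  have h3 : S ∩ closedBall y R ⊆ ⋃ v ∈ t, S ∩ closedBall v η := by
    rintro x ⟨hx, hb⟩
    have h4 : dist x (fun i => 2 * η * (round (x i / (2 * η)) : ℤ)) ≤ η := by
      refine (dist_pi_le_iff hη.le).2 fun i => ?_
      have h5 := abs_sub_round (x i / (2 * η))
      rw [Real.dist_eq, show x i - 2 * η * (round (x i / (2 * η)) : ℤ) =
        2 * η * (x i / (2 * η) - (round (x i / (2 * η)) : ℤ)) by field_simp, abs_mul,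
        abs_of_pos (by positivity)]
      nlinarith
    refine mem_biUnion (h1 ⟨fun i => ⟨_, rfl⟩, ?_⟩) ⟨hx, h4⟩
    rw [mem_closedBall] at hb ⊢
    linarith [dist_triangle_left (fun i => 2 * η * (round (x i / (2 * η)) : ℤ)) y x]
  refine (measure_mono h3).trans ((measure_biUnion_finset_le _ _).trans
    ((Finset.sum_le_card_nsmul _ _ _ fun v _ => h v).trans ?_))
  have h4 : 1 ≤ R / η := (one_le_div hη).2 hR
  rw [nsmul_eq_mul, ENNReal.ofReal_mul (by positivity), ← ENNReal.ofReal_natCast]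
  refine mul_le_mul_left (ENNReal.ofReal_le_ofReal (h2.trans ?_)) _
  rw [Finset.prod_const, Finset.card_univ, Fintype.card_fin,
    show 2 * (R + η) / (2 * η) + 1 = R / η + 2 by field_simp; ring,
    show 27 * (R / η) ^ 3 = (3 * (R / η)) ^ 3 by ring]
  gcongr
  linarith

/-- the mean over a ball of radius `R` from a density at a scale `η ≤ R` -/
theorem coreR (k : ℕ) {d : ℝ} (hd : (k : ℝ) = d) {S : Set E3} {g : E3 → ℝ≥0∞} {η R a c D : ℝ}
    (hη : 0 < η) (hR : η ≤ R) (hS : MeasurableSet S) (hg : Measurable g)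
    (h : ∀ y, μH[d] (S ∩ closedBall y η) ≤ ENNReal.ofReal D) (ha : 0 ≤ a) (hc : 0 ≤ c)
    (hac : a * (27 * D) ≤ c * η ^ 3) :
    Mean R (fun w => ENNReal.ofReal a * ∫⁻ x in {x | x - w ∈ S}, g x ∂(μH[d]))
      (ENNReal.ofReal c * ∫⁻ x, g x) := by
  refine core k hd (hη.trans_le hR) hS hg (dens_up hη hR h) ha hc ?_
  have h1 : 0 ≤ (R / η) ^ 3 := by have := hη.trans_le hR; positivity
  calc _ = a * (27 * D) * (R / η) ^ 3 := by ring
    _ ≤ c * η ^ 3 * (R / η) ^ 3 := mul_le_mul_of_nonneg_right hac h1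
    _ = _ := by field_simp

/-- lines with a density at the scale `η`, inside `X` -/
theorem mean_lines {S X : Set E3} {g : E3 → ℝ≥0∞} {η R : ℝ} {M : ℝ≥0} (hη : 0 < η) (hR : η ≤ R)
    (hS : MeasurableSet S) (h : ∀ y, μH[1] (S ∩ closedBall y 1) ≤ M) (hX : MeasurableSet X)
    (hg : Measurable g) :
    Mean R (fun w => ENNReal.ofReal η ^ 2 * ∫⁻ x in {x ∈ X | η⁻¹ • (x - w) ∈ S}, g x ∂(μH[1]))
      (27 * M * ∫⁻ x in X, g x) := by
  have h2 := coreR 1 Nat.cast_one (a := η ^ 2) (c := 27 * M) (D := η * M) hη hR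
    (measurable_const_smul η⁻¹ hS) (hg.indicator hX) (fun y => ?_) (by positivity)
    (by positivity) (le_of_eq (by ring))
  · rw [ENNReal.ofReal_pow hη.le, ENNReal.ofReal_mul (by norm_num), ENNReal.ofReal_coe_nnreal,
      ENNReal.ofReal_ofNat, lintegral_indicator hX] at h2
    convert h2 using 3 with w
    rw [lintegral_indicator hX, Measure.restrict_restrict hX]
    rfl
  · refine (hm_smul (inv_pos.2 hη) zero_le_one (T := S) (D := M)
      (by rwa [inv_mul_cancel₀ hη.ne']) y).trans_eq ?_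
    rw [ENNReal.rpow_one, inv_inv, ENNReal.ofReal_mul hη.le, ENNReal.ofReal_coe_nnreal]

variable {Ω X : Set E3} {g : E3 → ℝ≥0∞} {R : ℝ}

/-- the grid lines of type `j` inside `X` -/
theorem mean_grid (P : Par) (hP : P.Ok Ω) (j : Fin P.N) (hR : P.η ≤ R) (hX : MeasurableSet X)
    (hg : Measurable g) : Mean R (fun w => ENNReal.ofReal P.η ^ 2 *
      ∫⁻ x in {x ∈ X | (P.shift w).nu j x ∈ gridLines}, g x ∂(μH[1]))
      (cst (P.T j).b (P.m j) * ∫⁻ x in X, g x) := by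
  have hη := P.η_pos
  have hS : MeasurableSet {x | (1 : ℝ) • P.nu0 j x ∈ gridLines} :=
    (measurable_nu0 P j).const_smul (1 : ℝ) measurableSet_gridLines
  have h2 := coreR 1 Nat.cast_one (a := P.η ^ 2) (c := cst (P.T j).b (P.m j))
    (D := (P.T j).b * P.η / 1 * (3 * (2 * ((P.T j).b * P.m j * 1) + 2) ^ 3)) hη hR hS
    (hg.indicator hX) (fun y => ?_) (by positivity) (by positivity) ?_
  · rw [ENNReal.ofReal_pow hη.le, ENNReal.ofReal_natCast, lintegral_indicator hX] at h2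
    convert h2 using 3 with w
    rw [lintegral_indicator hX, Measure.restrict_restrict hX]
    congr 2
    ext x
    simp only [one_smul]
    rfl
  · refine (hm_nu0 P (hP.m_pos j) one_pos zero_le_one
      (fun y => hm_gridLines y (by positivity)) y).trans_eq ?_
    rw [ENNReal.rpow_one, ← ENNReal.ofReal_mul (by positivity)]
  · have h3 : (2 * ((P.T j).b * P.m j) + 2 : ℝ) ^ 3 ≤ (2 * ((P.T j).b * P.m j) + 3) ^ 3 := by
      gcongr; norm_num
    have h4 := mul_le_mul_of_nonneg_left h3 (by positivity : 0 ≤ (P.T j).b * P.η ^ 3)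
    have h5 : (0 : ℝ) ≤ (P.T j).b * P.η ^ 3 * (2 * ((P.T j).b * P.m j) + 3) ^ 3 := by positivity
    rw [cst, div_one, mul_one]
    push_cast
    nlinarith

/-- the ends of the grid edges of type `j` inside `X` -/
theorem mean_ends (P : Par) (hP : P.Ok Ω) (j : Fin P.N) (hR : P.η ≤ R) (hX : MeasurableSet X)
    (hg : Measurable g) {δ : ℝ} (hδ : 0 < δ) : Mean R (fun w => ENNReal.ofReal P.η ^ 2 *
      ∫⁻ x in {x ∈ X | (P.shift w).nu j x ∈ gridLines ∧ ∃ z : Fin 3 → ℤ,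
        dist ((P.shift w).nu j x) (fun i => (z i : ℝ)) ≤ δ}, g x ∂(μH[1]))
      (cst (P.T j).b (P.m j) * ENNReal.ofReal δ * ∫⁻ x in X, g x) := by
  have hη := P.η_pos
  have hS : MeasurableSet {x | (1 : ℝ) • P.nu0 j x ∈ nearLines δ} :=
    (measurable_nu0 P j).const_smul (1 : ℝ) (measurableSet_nearLines δ)
  have h2 := coreR 1 Nat.cast_one (a := P.η ^ 2) (c := cst (P.T j).b (P.m j) * δ)
    (D := (P.T j).b * P.η / 1 * (6 * δ * (2 * ((P.T j).b * P.m j * 1) + 3) ^ 3)) hη hR hS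
    (hg.indicator hX) (fun y => ?_) (by positivity) (by positivity) ?_
  · rw [ENNReal.ofReal_mul (Nat.cast_nonneg _), ENNReal.ofReal_pow hη.le, ENNReal.ofReal_natCast,
      lintegral_indicator hX] at h2
    convert h2 using 3 with w
    rw [lintegral_indicator hX, Measure.restrict_restrict hX]
    congr 2
    ext x
    simp only [one_smul]
    rfl
  · refine (hm_nu0 P (hP.m_pos j) one_pos zero_le_one (hm_near hδ (by positivity)) y).trans_eq ?_
    rw [ENNReal.rpow_one, ← ENNReal.ofReal_mul (by positivity)]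
  · have h4 : 0 ≤ (P.T j).b * δ * (2 * ((P.T j).b * P.m j) + 3) ^ 3 * P.η ^ 3 := by positivity
    rw [cst, div_one, mul_one]
    push_cast
    nlinarith

theorem hm_pts {n ϱ : ℝ} (hn : 1 ≤ n) (hϱ : 0 ≤ ϱ) (y : E3) :
    μH[0] (pts 1 ∩ {ξ | n⁻¹ • ξ ∈ gridLines} ∩ closedBall y (ϱ * n)) ≤
      ENNReal.ofReal (3 * ((2 * ϱ + 1) ^ 3 * n)) := by
  have h0 : n ≠ 0 := by positivity
  have h1 : pts 1 ∩ {ξ | n⁻¹ • ξ ∈ gridLines} ∩ closedBall y (ϱ * n) ⊆
      ⋃ i : Fin 3, pts 1 ∩ flat {i}ᶜ n ∩ closedBall y (ϱ * n) := by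
    rintro ξ ⟨⟨h2, i, h3⟩, h4⟩
    refine mem_iUnion.2 ⟨i, ⟨h2, fun l hl => ?_⟩, h4⟩
    obtain ⟨k, hk⟩ := h3 l (by simpa using hl)
    exact ⟨k, (inv_mul_eq_iff_eq_mul₀ h0).1 hk⟩
  refine (measure_mono h1).trans ((measure_iUnion_fintype_le _ _).trans
    ((Finset.sum_le_card_nsmul _ _ (ENNReal.ofReal ((2 * ϱ + 1) ^ 3 * n)) fun i _ =>
      ((hm_zero_eq _).trans_le (encard_flat _ hn y hϱ)).trans_eq ?_).trans_eq ?_))
  · rw [Finset.card_compl]
    simp
  · rw [ENNReal.ofReal_mul (p := 3) (by norm_num)]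
    simp

/-- the fine lattice points on the grid lines of type `j` inside `X` -/
theorem mean_pts (P : Par) (hP : P.Ok Ω) (j : Fin P.N) (hR : P.η ≤ R) (hX : MeasurableSet X) :
    Mean R (fun w => ENNReal.ofReal P.η ^ 3 * (P.n : ℝ≥0∞)⁻¹ *
      ({x ∈ X | (P.shift w).nu j x ∈ gridLines ∧
        ∀ i, ∃ k : ℤ, (P.n : ℝ) * (P.shift w).nu j x i = k}.encard : ℝ≥0∞))
      (cst (P.T j).b (P.m j) * volume X) := by
  have hη := P.η_pos
  have hn1 : (1 : ℝ) ≤ P.n := by exact_mod_cast hP.n_pos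
  have hn : (0 : ℝ) < P.n := by linarith
  have hb : (1 : ℝ) ≤ (P.T j).b := by exact_mod_cast (P.T j).b_pos
  have hS : MeasurableSet
      {x | (P.n : ℝ) • P.nu0 j x ∈ pts 1 ∩ {ξ | (P.n : ℝ)⁻¹ • ξ ∈ gridLines}} :=
    (measurable_nu0 P j).const_smul (P.n : ℝ) ((measurableSet_pts 1).inter
      (measurable_const_smul _ measurableSet_gridLines))
  have h2 := coreR 0 Nat.cast_zero (a := P.η ^ 3 * (P.n : ℝ)⁻¹) (c := cst (P.T j).b (P.m j))
    (D := 3 * ((2 * ((P.T j).b * P.m j) + 1) ^ 3 * P.n)) hη hR hS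
    (measurable_one.indicator hX) (fun y => ?_) (by positivity) (Nat.cast_nonneg _) ?_
  · rw [ENNReal.ofReal_mul (by positivity), ENNReal.ofReal_pow hη.le,
      ENNReal.ofReal_inv_of_pos hn, ENNReal.ofReal_natCast,
      ENNReal.ofReal_natCast, lintegral_indicator_one hX] at h2
    convert h2 using 3 with w
    rw [lintegral_indicator_one hX, Measure.restrict_apply hX, hm_zero_eq]
    congr 2
    ext x
    refine and_congr Iff.rfl (and_comm.trans (and_congr mem_pts_one.symm ?_))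
    rw [mem_ofPred_eq, inv_smul_smul₀ hn.ne']
    rfl
  · refine (hm_nu0 P (hP.m_pos j) hn le_rfl (hm_pts hn1 (by positivity)) y).trans_eq ?_
    rw [ENNReal.rpow_zero, one_mul]
  · have h3 : (2 * ((P.T j).b * P.m j) + 1 : ℝ) ^ 3 ≤ (2 * ((P.T j).b * P.m j) + 3) ^ 3 := by
      gcongr; norm_num
    have h4 : (0 : ℝ) ≤ (2 * ((P.T j).b * P.m j) + 3) ^ 3 := by positivity
    rw [show P.η ^ 3 * (P.n : ℝ)⁻¹ * (27 * (3 * ((2 * ((P.T j).b * P.m j) + 1) ^ 3 * P.n))) =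
      81 * (2 * ((P.T j).b * P.m j) + 1) ^ 3 * P.η ^ 3 by field_simp; norm_num, cst]
    push_cast
    gcongr ?_ * _
    nlinarith

/-- the weighted error terms of type `j` -/
noncomputable def Maj (P : Par) (j : Fin P.N) (K₀ : Set E3) (F : E3 → (E3 →L[ℝ] E3)) (δ : ℝ) :
    ℝ≥0∞ :=
  ENNReal.ofReal P.η ^ 3 * (P.n : ℝ≥0∞)⁻¹ * ({x ∈ P.U j \ K₀ | P.nu j x ∈ gridLines ∧
      ∀ i, ∃ k : ℤ, (P.n : ℝ) * P.nu j x i = k}.encard : ℝ≥0∞) +
    ENNReal.ofReal P.η ^ 2 *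
      (∫⁻ x in {x ∈ P.U j | P.nu j x ∈ gridLines}, ‖F x - (P.T j).A‖ₑ ∂(μH[1])) +
    ENNReal.ofReal P.η ^ 2 * ∫⁻ x in {x ∈ P.U j | P.nu j x ∈ gridLines ∧ ∃ z : Fin 3 → ℤ,
      dist (P.nu j x) (fun i => (z i : ℝ)) ≤ δ}, ‖F x‖ₑ ∂(μH[1])

/-- the mean of the error terms -/
theorem mean_maj (P : Par) (hP : P.Ok Ω) (j : Fin P.N) (hR : P.η ≤ R) {K₀ : Set E3}
    (hK : MeasurableSet K₀) {F : E3 → (E3 →L[ℝ] E3)} (hF : Measurable F) {δ : ℝ} (hδ : 0 < δ) :
    Mean R (fun w => Maj (P.shift w) j K₀ F δ) (cst (P.T j).b (P.m j) * (volume (P.U j \ K₀) +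
      (∫⁻ x in P.U j, ‖F x - (P.T j).A‖ₑ) + ENNReal.ofReal δ * ∫⁻ x in P.U j, ‖F x‖ₑ)) := by
  have hU : MeasurableSet (P.U j) := isOpen_thickening.measurableSet
  have h := ((mean_pts P hP j hR (hU.diff hK)).add (mean_grid P hP j hR hU
    (hF.sub_const (P.T j).A).enorm)).add (mean_ends P hP j hR hU hF.enorm hδ)
  rw [mul_assoc, ← mul_add, ← mul_add] at h
  exact h

end G2

end P073
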