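import Vale.Agent.P073Y.Gd.Sk
import Vale.Agent.P073Z.GOOD.Cnt
import Vale.Agent.P073Z.MESH.Geo

/-!
# The cells of the refined complex near the compact set
-/

open Set Metric Topology Filter MeasureTheory
open scoped ENNReal NNReal

namespace P073

namespace G2

open Gd

variable {Ω : Set E3} {P : Par} {j : Fin P.N} {Q : RCx E3} {x y : E3}

theorem exists_zt (h : P.Ok Ω) (j : Fin P.N) : ∃ e : E3 ≃ᵃ[ℝ] E3, ∀ x, e x = zt P j x := by
  obtain ⟨ν, hν⟩ := Me.exists_nu h j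
  exact ⟨ν.toAffineEquiv.trans (LinearEquiv.smulOfNeZero ℝ E3 (P.n : ℝ)
    (one_pos.trans_le (n_one h)).ne').toAffineEquiv, fun x => by simp [zt, hν]⟩

theorem fine_cell (hK : KUHN) (h : P.Ok Ω) (hQ : Wm Ω P j Q) {i : Q.ι}
    (hi : Q.cell i ⊆ Fine1 P j) : ∃ t, Rep P j t (Q.cell i) := by
  classical
  obtain ⟨ζ₀, hζ⟩ := hQ.fine i hi
  obtain ⟨e, he⟩ := exists_zt h j
  obtain ⟨t, h1, h2, h3, h4, h5, h6⟩ := hK.2 ζ₀
  have hC : ∀ x, x ∈ Q.cell i ↔ zt P j x ∈ kcell ζ₀ := fun x => by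
    rw [hζ]
    rfl
  have hm : ∀ v, v ∈ t.image e.symm ↔ zt P j v ∈ t := fun v => by
    rw [Finset.mem_image, ← he]
    exact ⟨fun ⟨u, hu, h⟩ => by rwa [← h, e.apply_symm_apply], fun h => ⟨_, h, by simp⟩⟩
  have hz : ∀ u, zt P j (e.symm u) = u := fun u => by rw [← he, e.apply_symm_apply]
  have hn : ∀ x ∈ Q.cell i, ∀ y ∈ Q.cell i, ‖zt P j x - zt P j y‖ ≤ 1 := by
    intro x hx y hy
    rw [hC, h4] at hx hy
    obtain ⟨u, hu, w, hw, h7⟩ := convexHull_exists_dist_ge2 hx hy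
    rw [dist_eq_norm, dist_eq_norm] at h7
    rcases eq_or_ne u w with rfl | h8
    · exact h7.trans (by simp)
    · exact h7.trans (h5 u hu w hw h8).le
  have hk : ∀ x ∈ Q.cell i, ∀ v, Int3 (zt P j v) → hat (zt P j x - zt P j v) ≠ 0 →
      v ∈ t.image e.symm := fun x hx v hv h7 => by
    rw [hm, ← Finset.mem_coe, h1]
    exact (h6 _).1.1 ((hC x).1 hx) ⟨hv, h7⟩
  refine ⟨t.image e.symm, fun x hx => (hi hx).1, fun v => ⟨fun hv => ?_, fun hv => hk v hv.1 v hv.2 ?_⟩,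
    Finset.card_image_le.trans h2, ?_, ?_, fun v hv w hw h7 => ?_, hn, fun x hx y hy => ?_,
    fun x hx => ?_, fun x hx => ?_, fun x hx v hv h7 => by_contra fun h8 => h7 (hk x hx v hv h8)⟩
  · rw [hm] at hv
    refine ⟨?_, (show zt P j v ∈ kv ζ₀ from h1 ▸ hv).1⟩
    rw [hC, h4]
    exact subset_convexHull ℝ _ hv
  · rw [sub_self, hat_zero]
    exact one_ne_zero
  · have h7 := (e.symm.affineIndependent_set_of_eq_iff (s := (t : Set E3))).2 h3
    rwa [← Finset.coe_image] at h7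
  · ext x
    rw [hC, h4, Finset.coe_image, ← he, ← AffineEquiv.coe_toAffineMap e.symm,
      ← AffineMap.image_convexHull]
    exact ⟨fun h => ⟨_, h, by simp⟩, fun ⟨u, hu, h⟩ => by simpa [← h] using hu⟩
  · refine h5 _ ((hm v).1 hv) _ ((hm w).1 hw) fun h8 => h7 (e.injective ?_)
    rwa [he, he]
  · have h7 : midpoint ℝ x y ∈ Q.cell i := (hQ.cvx i).1.midpoint_mem hx hy
    have h8 := hn x hx y hy
    have h9 := dist_left_midpoint (𝕜 := ℝ) (e x) (e y)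
    have h10 := dist_right_midpoint (𝕜 := ℝ) (e x) (e y)
    rw [← e.map_midpoint, he, he, he, dist_eq_norm, dist_eq_norm, Real.norm_two] at h9 h10
    exact (flat_of_near (hi hx).1 (hi h7).1 ((nu_le_zt h _ _).trans_lt (by linarith))).trans
      (flat_of_near (hi hy).1 (hi h7).1 ((nu_le_zt h _ _).trans_lt (by linarith))).symm
  · rw [Finset.sum_image e.symm.injective.injOn]
    simpa only [hz] using ((h6 _).2 ((hC x).1 hx)).1
  · obtain ⟨h7, h8⟩ := (h6 _).2 ((hC x).1 hx)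
    have h9 := affine_sum e.symm.toAffineMap t h7
    rw [h8, ← he, AffineEquiv.coe_toAffineMap, e.symm_apply_apply, he] at h9
    rw [Finset.sum_image e.symm.injective.injOn]
    simpa only [hz] using h9.symm

theorem exists_lat (h : P.Ok Ω) (j : Fin P.N) (y : E3) (R : ℕ) :
    ∃ s : Finset E3, s.card ≤ (2 * R + 1) ^ 3 ∧
      ∀ v, Int3 (zt P j v) → ‖zt P j v - y‖ ≤ R → v ∈ s := by
  classical
  obtain ⟨e, he⟩ := exists_zt h j
  obtain ⟨s, h1, h2⟩ := exists_lattice y R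
  exact ⟨s.image e.symm, Finset.card_image_le.trans h1, fun v hv h3 =>
    Finset.mem_image.2 ⟨_, h2 _ hv h3, by rw [← he, e.symm_apply_apply]⟩⟩

theorem card_star (hK : KUHN) (h : P.Ok Ω) (hQ : Wm Ω P j Q) (v : E3) :
    {i | Q.cell i ⊆ Fine1 P j ∧ v ∈ Q.cell i}.encard ≤ (2 ^ 27 : ℕ) := by
  classical
  obtain ⟨s, h1, h2⟩ := exists_lat h j (zt P j v) 1
  refine (encard_le_encard_of_injOn (t := (s.powerset : Set (Finset E3)))
    (f := fun i => s.filter fun u => Int3 (zt P j u) ∧ u ∈ Q.cell i)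
    (fun i _ => Finset.mem_powerset.2 (Finset.filter_subset _ _)) fun i hi i' hi' e => ?_).trans ?_
  · have k : ∀ i, Q.cell i ⊆ Fine1 P j → v ∈ Q.cell i → Q.cell i =
        convexHull ℝ (s.filter fun u => Int3 (zt P j u) ∧ u ∈ Q.cell i : Finset E3) := by
      intro i h3 h4
      obtain ⟨t, ht⟩ := fine_cell hK h hQ h3
      refine ht.hull.trans (congrArg _ (congrArg _ (Finset.ext fun u => ?_)))
      rw [ht.mem, Finset.mem_filter]
      exact ⟨fun h5 => ⟨h2 u h5.2 (by simpa using ht.near u h5.1 v h4), h5.symm⟩,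
        fun h5 => h5.2.symm⟩
    refine Q.cell_injective ?_
    rw [k i hi.1 hi.2, k i' hi'.1 hi'.2]
    exact congrArg _ (congrArg _ e)
  · rw [encard_coe_eq_coe_finsetCard, Finset.card_powerset, Nat.cast_le]
    exact Nat.pow_le_pow_right two_pos h1

theorem vertex_int (hK : KUHN) (h : P.Ok Ω) (hQ : Wm Ω P j Q) {v : Q.ι}
    (hv : Q.cell v = {x}) (hx : x ∈ Fine1 P j) : Int3 (zt P j x) := by
  obtain ⟨t, ht⟩ := fine_cell hK h hQ (i := v) (by rwa [hv, singleton_subset_iff])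
  rw [hv] at ht
  obtain ⟨u, hu⟩ := ht.exists_mem rfl
  obtain ⟨rfl, h1⟩ := (ht.mem u).1 hu
  exact h1

theorem end_int (hK : KUHN) (h : P.Ok Ω) (hQ : Wm Ω P j Q) {e : Q.ι}
    (he : Q.dim e = 1) (hs : Q.cell e = segment ℝ x y) (hx : x ∈ Fine1 P j) :
    Int3 (zt P j x) := by
  obtain ⟨v, -, hv⟩ := Q.vertex_of_mem_bd he (x := x)
    (by rw [(edge_ends hQ.cvx he hs).2]; simp)
  exact vertex_int hK h hQ hv hx

open Classical in
theorem fine_edge (hK : KUHN) (h : P.Ok Ω) (hQ : Wm Ω P j Q) {e : Q.ι}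
    (he : Q.dim e = 1) (hs : Q.cell e = segment ℝ x y) (hf : Q.cell e ⊆ Fine1 P j) :
    Rep P j {x, y} (segment ℝ x y) := by
  obtain ⟨t, ht⟩ := fine_cell hK h hQ hf
  obtain ⟨g, hg⟩ := exists_zt h j
  have h1 := (edge_ends hQ.cvx he hs).1
  have h2 := end_int hK h hQ he hs (hf (hs ▸ left_mem_segment ℝ x y))
  have h3 := end_int hK h hQ he (hs.trans (segment_symm ℝ x y))
    (hf (hs ▸ right_mem_segment ℝ x y))
  rw [hs] at ht
  have hx := (ht.mem x).2 ⟨left_mem_segment ℝ x y, h2⟩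
  have hy := (ht.mem y).2 ⟨right_mem_segment ℝ x y, h3⟩
  suffices t = {x, y} by rwa [← this]
  refine Finset.ext fun w => ⟨fun hw => by_contra fun h4 => ?_, fun hw => ?_⟩
  · simp only [Finset.mem_insert, Finset.mem_singleton, not_or] at h4
    have h5 := mem_image_of_mem g.toAffineMap (ht.sub hw)
    rw [image_segment] at h5
    have h6 := dist_add_dist_of_mem_segment h5
    simp only [AffineEquiv.coe_toAffineMap, hg, dist_eq_norm] at h6
    rw [ht.one x hx w hw (Ne.symm h4.1), ht.one w hw y hy h4.2, ht.one x hx y hy h1] at h6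
    norm_num at h6
  · rcases Finset.mem_insert.1 hw with rfl | h4
    exacts [hx, Finset.mem_singleton.1 h4 ▸ hy]

theorem cell_buf (h : P.Ok Ω) (hQ : Wm Ω P j Q) {i : Q.ι} (hx : x ∈ Q.cell i) (hy : y ∈ P.Fine j)
    (hd : ‖P.nu j x - P.nu j y‖ < 1) : Q.cell i ⊆ P.BufSet j := by
  obtain ⟨ν, hν⟩ := Me.exists_nu h j
  have h1 : IsOpen {u | ‖ν u - P.nu j y‖ < 1} :=
    isOpen_lt (ν.continuous.sub continuous_const).norm continuous_const
  obtain ⟨u, h2, h3⟩ := _root_.mem_closure_iff.1 ((Q.ball i).subset_closure_int hx) _ h1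
    (by rwa [mem_ofPred_eq, hν])
  obtain ⟨c, hc, h4, -⟩ := hy
  rw [mem_ofPred_eq, hν] at h2
  obtain ⟨h5, h6⟩ := floor_buf hc h4 h2.le
  exact fun w hw => ⟨_, h5, (hQ.sub_box _ h5).cell_subset h3 h6 hw⟩

/-- a coarse edge near the inner cubes -/
structure BoxE (P : Par) (j : Fin P.N) (Q : RCx E3) (e : Q.ι) : Prop where
  dim : Q.dim e = 1
  U : Q.cell e ⊆ P.U j
  grid : ∀ y ∈ Q.cell e, P.nu j y ∈ gridLines
  near : ∀ y ∈ Q.cell e, ∀ y' ∈ Q.cell e, ‖P.nu j y - P.nu j y'‖ ≤ 1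
  int : ∀ a ∈ Q.bd e, Int3 (P.nu j a)
  inner : ∃ c ∈ P.Inner j, ∀ y ∈ Q.cell e, ‖P.nu j y - fun i => (c i : ℝ)‖ ≤ (3 : ℕ)

theorem box_edge (h : P.Ok Ω) (hQ : Wm Ω P j Q) {e : Q.ι} (he : Q.dim e = 1)
    (hx : x ∈ Q.cell e) (hy : y ∈ P.Fine j) (hyK : y ∈ P.K j) {δ : ℝ}
    (hd : ‖P.nu j x - P.nu j y‖ ≤ δ) (hδ : δ ≤ 1 / 10) (hn : ¬ Q.cell e ⊆ Fine1 P j) :
    BoxE P j Q e ∧ ∃ a a', Q.cell e = segment ℝ a a' ∧
      x ∈ segment ℝ a (AffineMap.lineMap a a' δ) := by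
  obtain ⟨_, ⟨lo, hi, h1, rfl⟩, h2⟩ := hQ.coarse e he (cell_buf h hQ hx hy (by linarith)) hn
  obtain ⟨p, q, -, -, -, h3, -⟩ := hQ.cvx.exists_segment he
  obtain ⟨c, hc, h4⟩ := hy
  obtain ⟨ν, hν⟩ := Me.exists_nu h j
  let g := ν.toAffineEquiv
  have hg : ∀ u, g u = P.nu j u := hν
  have h5 : Icc (fun i => (lo i : ℝ)) (fun i => (hi i : ℝ)) = g '' Q.cell e := by
    rw [h2, ← funext hg, image_preimage_eq _ g.surjective]
  have h6 := image_segment ℝ g.toAffineMap p q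
  rw [← h3, AffineEquiv.coe_toAffineMap, ← h5] at h6
  obtain ⟨h7, h8⟩ := box_seg h1 h6
  rw [← h6] at h7 h8
  obtain ⟨a, ha⟩ := g.surjective fun i => (lo i : ℝ)
  obtain ⟨a', ha'⟩ := g.surjective fun i => (hi i : ℝ)
  have h9 : Q.cell e = segment ℝ a a' := by
    have h10 := image_segment ℝ g.toAffineMap a a'
    rw [AffineEquiv.coe_toAffineMap, ha, ha', ← h7, h5] at h10
    exact (g.injective.image_injective h10).symm
  have h10 : ∀ u ∈ Q.cell e, ∀ u' ∈ Q.cell e, ‖P.nu j u - P.nu j u'‖ ≤ 1 := by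
    have k : ∀ u ∈ Q.cell e, P.nu j u ∈ ucube lo := fun u hu => by
      rw [h2] at hu
      refine ⟨hu.1, fun i => (hu.2 i).trans ?_⟩
      rcases h1 i with e | e <;> simp [e]
    exact fun u hu u' hu' => ucube_near (k u hu) (k u' hu')
  have h11 : ∀ u ∈ Q.cell e, ‖P.nu j u - P.nu j y‖ ≤ 2 := fun u hu => by
    linarith [norm_sub_le_norm_sub_add_norm_sub (P.nu j u) (P.nu j x) (P.nu j y), h10 u hu x hx]
  refine ⟨⟨he, fun u hu => mem_U hyK ?_, fun u hu => h8 (by rwa [h2] at hu), h10, fun u hu => ?_,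
    c, hc, fun u hu => ?_⟩, ?_⟩
  · have h12 := eta_pos P
    have h13 := b_one P j
    rw [dist_eq_norm]
    refine (le_nu h u y).trans ((mul_le_mul_of_nonneg_left (h11 u hu) (by positivity)).trans ?_)
    nlinarith
  · rw [(edge_ends hQ.cvx he h9).2] at hu
    rw [← hg]
    rcases hu with rfl | rfl
    exacts [ha ▸ fun i => ⟨_, rfl⟩, ha' ▸ fun i => ⟨_, rfl⟩]
  · have h12 := ucube_near h4.1 (show (fun i => (c i : ℝ)) ∈ ucube c from
      ⟨le_rfl, fun i => le_add_of_nonneg_right zero_le_one⟩)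
    have h13 := norm_sub_le_norm_sub_add_norm_sub (P.nu j u) (P.nu j y) fun i => (c i : ℝ)
    push_cast
    linarith [h11 u hu]
  · have h12 := hx
    rw [h9, segment_eq_image_lineMap] at h12
    obtain ⟨s, hs, rfl⟩ := h12
    have k : ∀ (a a' : E3) {s : ℝ}, 0 ≤ s → s ≤ δ →
        AffineMap.lineMap a a' s ∈ segment ℝ a (AffineMap.lineMap a a' δ) := by
      intro a a' s h0 h1
      have h2 := image_segment ℝ (AffineMap.lineMap a a' : ℝ →ᵃ[ℝ] E3) 0 δ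
      rw [AffineMap.lineMap_apply_zero, segment_eq_Icc (h0.trans h1)] at h2
      exact h2 ▸ mem_image_of_mem _ ⟨h0, h1⟩
    by_cases h13 : s ≤ δ
    · exact ⟨_, _, h9, k _ _ hs.1 h13⟩
    by_cases h14 : 1 - s ≤ δ
    · refine ⟨_, _, h9.trans (segment_symm _ _ _), ?_⟩
      have h15 := k a' a (sub_nonneg.2 hs.2) h14
      rwa [AffineMap.lineMap_apply_one_sub] at h15
    rw [← hg, g.apply_lineMap, ha, ha'] at hd
    refine (hn fun u hu => ⟨⟨c, hc, box_end h1 h4 hd (not_le.1 h13) (not_le.1 h14) ?_⟩,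
      h8 (by rwa [h2] at hu)⟩).elim
    rwa [h2] at hu

theorem card_box (h : P.Ok Ω) (hQ : Wm Ω P j Q) :
    ({e | BoxE P j Q e}.encard : ℝ≥0∞) ≤ (7 ^ 6 : ℕ) * (P.Inner j).encard := by
  obtain ⟨ν, hν⟩ := Me.exists_nu h j
  refine (enc_mono (t := ⋃ c ∈ P.Inner j, {e | Q.dim e = 1 ∧ ∀ a ∈ Q.bd e,
    Int3 (P.nu j a) ∧ ‖P.nu j a - fun i => (c i : ℝ)‖ ≤ (3 : ℕ)}) fun e he => ?_).trans
    (enc_mul _ fun c _ => ?_)
  · obtain ⟨c, hc, h1⟩ := he.inner
    exact mem_biUnion hc ⟨he.dim, fun a ha => ⟨he.int a ha, h1 a (Q.bd_subset e ha)⟩⟩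
  · obtain ⟨s, h1, h2⟩ := exists_lattice (fun i => (c i : ℝ)) 3
    refine (enc_mono (t := ⋃ u ∈ (s ×ˢ s : Finset (E3 × E3)), {e | Q.cell e =
      segment ℝ (ν.symm u.1) (ν.symm u.2)}) fun e he => ?_).trans
      ((enc_sum _ (c := fun _ => 1) fun u _ => ?_).trans ?_)
    · obtain ⟨p, q, -, -, -, h3, h4, -⟩ := hQ.cvx.exists_segment he.1
      have h5 := he.2 p (by simp [h4])
      have h6 := he.2 q (by simp [h4])
      refine mem_biUnion (x := (P.nu j p, P.nu j q)) (Finset.mem_coe.2 (Finset.mem_product.2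
        ⟨h2 _ h5.1 h5.2, h2 _ h6.1 h6.2⟩)) ?_
      simp [← hν, h3]
    · exact_mod_cast encard_le_one_iff_subsingleton.2 fun e he e' he' =>
        Q.cell_injective (Eq.trans he (Eq.symm he'))
    · rw [Finset.sum_const, nsmul_one, Finset.card_product, Nat.cast_le]
      exact (Nat.mul_le_mul h1 h1).trans (by norm_num)

end G2

end P073
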