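import Vale.Agent.P073Z.Sk3

/-!
# Good wires: statements
-/

open Set Metric Topology Filter MeasureTheory
open scoped ENNReal NNReal

namespace P073

namespace G2

/-- the finely subdivided wires: the edges of the bottom faces of the inner cubes -/
def Fine1 (P : Par) (j : Fin P.N) : Set E3 := {x ∈ P.Fine j | P.nu j x ∈ gridLines}

/-- what is used of the refined complex near the compact set of type `j` -/
structure Wm (Ω : Set E3) (P : Par) (j : Fin P.N) (Q : RCx E3) : Prop where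
  cvx : Q.Cvx
  carrier : Q.carrier = Ω
  sub_box : ∀ z ∈ P.Buf j, Q.Sub (P.nu j ⁻¹' ucube z)
  fine : ∀ i, Q.cell i ⊆ Fine1 P j →
    ∃ ζ, Q.cell i = (fun y => (P.n : ℝ) • P.nu j y) ⁻¹' kcell ζ
  coarse : ∀ e, Q.dim e = 1 → Q.cell e ⊆ P.BufSet j → ¬ Q.cell e ⊆ Fine1 P j →
    ∃ X, IsBox X ∧ Q.cell e = P.nu j ⁻¹' X

/-- the four error terms: fine lattice points off `K₀`, the deviation from the matrix on the fine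
wires, the ends of the grid edges, the number of inner cubes -/
noncomputable def Bad (P : Par) (j : Fin P.N) (K₀ : Set E3) (F : E3 → (E3 →L[ℝ] E3))
    (τ' d : ℝ) : ℝ≥0∞ :=
  ({x ∈ P.U j \ K₀ | P.nu j x ∈ gridLines ∧
      ∀ i, ∃ k : ℤ, (P.n : ℝ) * P.nu j x i = k}.encard : ℝ≥0∞) +
    ENNReal.ofReal ((τ' * P.ρ j)⁻¹) * (∫⁻ x in Fine1 P j, ‖F x - (P.T j).A‖ₑ ∂(μH[1])) +
    ENNReal.ofReal ((P.ρ j)⁻¹) *
      (∫⁻ x in {x ∈ P.U j | P.nu j x ∈ gridLines ∧ ∃ z : Fin 3 → ℤ,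
        dist (P.nu j x) (fun i => (z i : ℝ)) ≤ (P.T j).b * P.m j * d / P.η},
        ‖F x‖ₑ ∂(μH[1])) +
    ((P.Inner j).encard : ℝ≥0∞)

/-- selection of the good fine wires of one type and count of the bad ones; `β'` is the fine
scale at which the inverse modulus `d` is taken, `β` is any larger scale; `f` is almost affine on
`K₀` -/
def GOOD2 : Prop := ∀ κ₀ : ℝ → ℝ, (∀ M, 0 < κ₀ M) → ∃ τ₁ τ' Cg : ℕ → ℝ,
  (∀ b, 0 < τ₁ b ∧ 0 < τ' b ∧ τ' b ≤ 1 ∧ 1 ≤ Cg b) ∧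
  ∀ {Ω : Set E3} {f : E3 → E3} {F : E3 → (E3 →L[ℝ] E3)} (P : Par) (j : Fin P.N) (Q : RCx E3)
    (K₀ : Set E3) {τ β' β d : ℝ}, P.Ok Ω → Wm Ω P j Q → Measurable F → K₀ ⊆ P.K j → β' ≤ β →
  0 ≤ τ → τ ≤ τ₁ (P.T j).b → (∀ x ∈ K₀, ∀ y ∈ K₀, dist x y ≤ P.η →
    ‖f y - f x - (P.T j).A (y - x)‖ ≤ τ * ‖y - x‖) →
  (∀ x ∈ P.U j, ∀ y ∈ Ω, dist (f x) (f y) ≤ 20 * β' → dist x y ≤ d) →
  10 * (P.T j).b * P.m j * d ≤ P.η → Cg (P.T j).b * P.ρ j ≤ β' →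
  (∀ e x y, Q.dim e = 1 → Q.cell e = segment ℝ x y →
    Vale.Agent.P073.HB.GoodSeg f F x (y - x)) →
  ∃ γ : Good Q f κ₀ β,
    (∀ i ∈ γ.G, Q.cell i ⊆ Fine1 P j ∧
      (∀ x ∈ Q.cell i, ∃ v ∈ Q.cell i ∩ K₀, dist (γ.A i x) (f v) ≤ β') ∧
      ∀ x ∈ Q.cell i, ∀ y ∈ Q.cell i,
        ‖γ.A i y - γ.A i x - (P.T j).A (y - x)‖ ≤ Cg (P.T j).b * τ * ‖y - x‖) ∧
    ({i | Q.cell i ⊆ Fine1 P j ∧ i ∉ γ.G}.encard : ℝ≥0∞) ≤
      ENNReal.ofReal (Cg (P.T j).b) * Bad P j K₀ F (τ' (P.T j).b) d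

/-- finitely many separated families of good cells form one family -/
def GSUM : Prop := ∀ {Q : RCx E3} {f : E3 → E3} {κ₀ : ℝ → ℝ} {β : ℝ} {κ : Type} [Finite κ]
  (γ : κ → Good Q f κ₀ β), 0 < β →
  (∀ k k', k ≠ k' → ∀ i ∈ (γ k).G, ∀ i' ∈ (γ k').G, ∀ y ∈ (γ k).A i '' Q.cell i,
    ∀ z ∈ (γ k').A i' '' Q.cell i', 10 * β ≤ dist y z) →
  ∃ δ : Good Q f κ₀ β, (∀ i, i ∈ δ.G ↔ ∃ k, i ∈ (γ k).G) ∧
    ∀ k, ∀ i ∈ (γ k).G, δ.A i = (γ k).A i ∧ δ.s i = (γ k).s i ∧ δ.M i = (γ k).M i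

/-- boxes of the fine lattice on grid lines are Kuhn cells -/
def BOXK : Prop := ∀ (n : ℕ) (X : Set E3), 1 ≤ n → IsBox X →
  (∀ ξ ∈ X, (n : ℝ)⁻¹ • ξ ∈ gridLines) → ∃ ζ, X = kcell ζ

/-- the variation of `g - A` along unions of fine wires: `s` is a finite family of segments with
disjoint interiors in the fine wires, `g` is affine and close to `A` on the cells of `G` and has
controlled speed on all wires -/
def SHARPW : Prop := ∀ {Ω : Set E3} {f g : E3 → E3} {F : E3 → (E3 →L[ℝ] E3)} (P : Par)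
  (j : Fin P.N) (Q : RCx E3) (G : Set Q.ι) {κ : Type} (s : Finset κ) (a c : κ → E3) {t : ℝ}
  {K₂ : ℝ≥0∞} (η : Q.ι → ℝ≥0∞), P.Ok Ω → Wm Ω P j Q → Measurable F → 0 ≤ t →
  (∀ e x y, Q.dim e = 1 → Q.cell e = segment ℝ x y →
    Vale.Agent.P073.HB.GoodSeg f F x (y - x)) →
  (∀ i ∈ G, Q.cell i ⊆ Fine1 P j → ∀ x ∈ Q.cell i, ∀ y ∈ Q.cell i,
    ‖g y - g x - (P.T j).A (y - x)‖ ≤ t * ‖y - x‖) →
  (∀ e x y, Q.dim e = 1 → Q.cell e = segment ℝ x y → ∀ u ∈ Q.cell e, ∀ w ∈ Q.cell e,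
    edist (g u) (g w) * edist x y ≤ (K₂ * segVar f x y + η e) * edist u w) →
  (∀ k ∈ s, segment ℝ (a k) (c k) ⊆ Fine1 P j ∧ Q.Sub (segment ℝ (a k) (c k))) →
  (∀ k ∈ s, ∀ k' ∈ s, k ≠ k' → (segment ℝ (a k) (c k) ∩ segment ℝ (a k') (c k')).Finite) →
  ∑ k ∈ s, segVar (fun x => g x - (P.T j).A x) (a k) (c k) ≤
    ENNReal.ofReal t * ∑ k ∈ s, edist (a k) (c k) +
    K₂ * (∫⁻ x in Fine1 P j, ‖F x - (P.T j).A‖ₑ ∂(μH[1])) +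
    (K₂ + 1) * ENNReal.ofReal ((P.T j).b ^ 2 * P.ρ j) *
      ({i | Q.cell i ⊆ Fine1 P j ∧ i ∉ G}.encard : ℝ≥0∞) +
    ∑' e, {e | Q.cell e ⊆ Fine1 P j}.indicator η e

end G2

end P073
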