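import Vale.Agent.P073Y.Gd.Key

/-!
# The good wires
-/

open Set Metric Topology Filter MeasureTheory
open scoped ENNReal NNReal

namespace P073

namespace G2

open Gd Vale.Agent.P073.HB

variable {Ω : Set E3} {P : Par} {K : Fin P.N → Set E3} {j : Fin P.N} {Q : RCx E3}
  {f : E3 → E3} {F : E3 → (E3 →L[ℝ] E3)} {τ : Fin P.N → ℝ} {β β₁ d : ℝ} {θ : ℕ → ℝ}

/-- nice edges -/
def Nice (P : Par) (K : Fin P.N → Set E3) (Q : RCx E3)
    (F : E3 → (E3 →L[ℝ] E3)) (θ : ℕ → ℝ) (j : Fin P.N)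
    (e : Q.ι) : Prop :=
  Q.cell e ⊆ Fine1 P j ∧ (∀ v ∈ Q.cell e, Int3 (zt P j v) → v ∈ K j) ∧
    ∫⁻ x in Q.cell e, ‖F x - (P.T j).A‖ₑ ∂(μH[1]) ≤ ENNReal.ofReal (θ (P.T j).b * P.ρ j)

/-- good vertices -/
def GoodV (P : Par) (K : Fin P.N → Set E3) (Q : RCx E3)
    (f : E3 → E3) (F : E3 → (E3 →L[ℝ] E3)) (θ : ℕ → ℝ)
    (j : Fin P.N) (v : E3) : Prop :=
  v ∈ K j ∧ (P.T j).b * P.ρ j ≤ P.η ∧ ∀ e, Q.dim e = 1 → ∀ x ∈ Q.cell e,
    dist (f v) (f x) ≤ 3 * (((P.T j).b : ℝ) ^ 2 * P.ρ j) → Nice P K Q F θ j e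

/-- good cells -/
def GoodC (P : Par) (K : Fin P.N → Set E3) (Q : RCx E3)
    (f : E3 → E3) (F : E3 → (E3 →L[ℝ] E3)) (θ : ℕ → ℝ)
    (j : Fin P.N) (i : Q.ι) : Prop :=
  Q.cell i ⊆ Fine1 P j ∧ ∀ v ∈ Q.cell i, Int3 (zt P j v) → GoodV P K Q f F θ j v

theorem finite_U (h : P.Ok Ω) (hQ : Wm Ω P j Q) :
    {i | Q.cell i ⊆ P.U j}.Finite :=
  (Q.finite_subset (h.compact j).cthickening
    (Subset.trans (fun x hx => (h.big j x hx).1) hQ.carrier.ge)).subset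
    fun _ hi => Subset.trans hi (U_cth P j)

open Classical in
theorem nice_edge (H : Hy Ω P K f τ β d) (hS : SEGV) (hQ : Wm Ω P j Q) (hF : Measurable F)
    {e : Q.ι} {x y : E3} (he : Q.dim e = 1)
    (hs : Q.cell e = segment ℝ x y) (hg : GoodSeg f F x (y - x)) (hn : Nice P K Q F θ j e)
    (hb : (P.T j).b * P.ρ j ≤ P.η) :
    ∃ A, Kc P K j f {x, y} (segment ℝ x y) A ∧
      (∀ s : ℝ, A (AffineMap.lineMap x y s) = AffineMap.lineMap (f x) (f y) s) ∧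
      eVariationOn (fun t : ℝ => f (AffineMap.lineMap x y t) - AffineMap.lineMap (f x) (f y) t)
        (Icc 0 1) ≤ ENNReal.ofReal (2 * (θ (P.T j).b * P.ρ j)) := by
  have h1 := fine_edge H.kuhn H.ok hQ he hs hn.1
  obtain ⟨A, hA⟩ := exists_interp h1.indep f
  refine ⟨A, ⟨h1, fun v hv => hn.2.1 v (hs ▸ h1.sub hv) ((h1.mem v).1 hv).2, hA, hb⟩,
    fun s => by rw [A.apply_lineMap, hA x (by simp), hA y (by simp)], ?_⟩
  refine (hS (P.T j).A le_rfl (edge_ends hQ.cvx he hs).1 hF hg).2.2.1.trans ?_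
  rw [ENNReal.ofReal_mul zero_le_two, ENNReal.ofReal_ofNat, ← hs]
  exact mul_le_mul_right hn.2.2 _

theorem exists_choice (H : Hy Ω P K f τ β d) (hQ : Wm Ω P j Q) (i : Q.ι) :
    ∃ A : E3 →ᵃ[ℝ] E3, GoodC P K Q f F θ j i → ∃ t, Kc P K j f t (Q.cell i) A := by
  by_cases hj : GoodC P K Q f F θ j i
  · obtain ⟨t, ht⟩ := fine_cell H.kuhn H.ok hQ hj.1
    obtain ⟨A, hA⟩ := exists_interp ht.indep f
    obtain ⟨x, hx⟩ := Q.cell_nonempty i
    obtain ⟨v, hv⟩ := ht.exists_mem hx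
    have h1 : ∀ v ∈ t, GoodV P K Q f F θ j v := fun v hv => hj.2 v (ht.sub hv) ((ht.mem v).1 hv).2
    exact ⟨A, fun _ => ⟨t, ht, fun v hv => (h1 v hv).1, hA, (h1 v hv).2.1⟩⟩
  · exact ⟨0, fun h => (hj h).elim⟩

theorem exists_good (H : Hy Ω P K f τ β d) (hS : SEGV) (hQ : Wm Ω P j Q) (hF : Measurable F)
    (hβ₁ : β ≤ β₁) {κ₀ : ℝ → ℝ} (hθ : ∀ b, θ b * (64 * b) ≤ 1 ∧ θ b * (4 * b) ≤ κ₀ (Mb b))
    (hg : ∀ e x y, Q.dim e = 1 → Q.cell e = segment ℝ x y → GoodSeg f F x (y - x)) :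
    ∃ γ : Good Q f κ₀ β₁, (∀ i, GoodC P K Q f F θ j i → i ∈ γ.G) ∧
      ∀ i ∈ γ.G, Q.cell i ⊆ Fine1 P j ∧
        (∀ x ∈ Q.cell i, ∃ v ∈ Q.cell i ∩ K j, dist (γ.A i x) (f v) ≤ β) ∧
        ∀ x ∈ Q.cell i, ∀ y ∈ Q.cell i, ‖γ.A i y - γ.A i x - (P.T j).A (y - x)‖ ≤
          40 * ((P.T j).b : ℝ) ^ 2 * τ j * ‖y - x‖ := by
  classical
  choose A hc using exists_choice (F := F) (θ := θ) H hQ
  have hfin : {i | GoodC P K Q f F θ j i}.Finite :=
    (finite_U H.ok hQ).subset fun i hj x hx => fine_U H.ok (hj.1 hx).1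
  obtain ⟨G, hG⟩ : ∃ G : Finset Q.ι, ∀ i, i ∈ G ↔ GoodC P K Q f F θ j i :=
    ⟨hfin.toFinset, fun i => hfin.mem_toFinset⟩
  have hβ := H.pos
  have hN : ∀ {e x}, GoodV P K Q f F θ j x → Q.dim e = 1 → x ∈ Q.cell e →
      Nice P K Q F θ j e := fun {e x} h he hx => h.2.2 e he x hx (by
    have := rho_pos H.ok j
    rw [dist_self]
    positivity)
  refine ⟨{ G := G, A := A, s := fun _ => P.ρ j / (2 * (P.T j).b), M := fun _ => Mb (P.T j).b,
            face := ?_, simplex := ?_, vert := ?_, inj := ?_, inter := ?_, pos := ?_,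
            sep := fun _ _ _ _ h => (h.elim (fun h => h rfl) fun h => h rfl).elim, deg := ?_,
            wire := ?_, far := ?_, ang := ?_ }, fun i h => (hG i).2 h, ?_⟩
  · intro i hi k hk
    have hj := (hG i).1 hi
    have hj' : GoodC P K Q f F θ j k := ⟨hk.trans hj.1, fun v hv => hj.2 v (hk hv)⟩
    obtain ⟨t, ht⟩ := hc i hj
    obtain ⟨t', ht'⟩ := hc k hj'
    refine ⟨(hG k).2 hj', rfl, rfl, fun x hx => ?_⟩
    have h5 : Kc P K j f t' (Q.cell k) (A i) := ⟨ht'.toRep, ht'.K, fun v hv =>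
      ht.eq v ((ht.mem v).2 ⟨hk (ht'.sub hv), ((ht'.mem v).1 hv).2⟩), ht'.sc⟩
    rw [ht'.val hx, h5.val hx]
  · intro i hi
    have hj := (hG i).1 hi
    obtain ⟨t, ht⟩ := hc i hj
    refine ⟨t, ht.indep, ht.hull, fun k hk => ?_⟩
    obtain ⟨t', ht'⟩ := fine_cell H.kuhn H.ok hQ (hk.trans hj.1)
    exact ⟨t', fun v hv => (ht.mem v).2 ⟨hk (ht'.sub hv), ((ht'.mem v).1 hv).2⟩, ht'.hull⟩
  · intro v hv h0 x hx
    have hj := (hG v).1 hv
    obtain ⟨t, ht⟩ := hc v hj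
    obtain ⟨a, ha⟩ := Q.exists_vertex h0
    obtain rfl : x = a := by rwa [ha] at hx
    exact ht.eq x ((ht.mem x).2 ⟨hx, vertex_int H.kuhn H.ok hQ ha (hj.1 hx)⟩)
  · intro i hi x hx y hy h
    have hj := (hG i).1 hi
    obtain ⟨t, ht⟩ := hc i hj
    exact low_eq H ht ht hx hy h
  · rintro i hi k hk _ ⟨⟨x, hx, rfl⟩, y, hy, h⟩
    have hj := (hG i).1 hi
    obtain ⟨t, ht⟩ := hc i hj
    obtain ⟨t', ht'⟩ := hc k ((hG k).1 hk)
    obtain rfl := low_eq H ht ht' hx hy h.symm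
    exact ⟨x, ⟨hx, hy⟩, rfl⟩
  · intro i hi
    have h3 := rho_pos H.ok j
    have h4 := b_one P j
    have h5 : 1 ≤ Mb (P.T j).b := le_trans (by norm_num) (le_Mb h4).2.2
    exact ⟨by positivity, h5, ((mul_le_mul_of_nonneg_left (div_le_self h3.le (by linarith))
      (by positivity)).trans (H.par j).2).trans hβ₁⟩
  · intro v hv h0
    have hj := (hG v).1 hv
    obtain ⟨a, ha⟩ := Q.exists_vertex h0
    have h3 : a ∈ Q.cell v := by simp [ha]
    have h4 := hj.2 a h3 (vertex_int H.kuhn H.ok hQ ha (hj.1 h3))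
    have h5 : {e | Q.dim e = 1 ∧ Q.cell v ⊆ Q.cell e}.ncard ≤ 2 ^ 27 :=
      (encard_le_coe_iff_finite_ncard_le.1 (le_trans (encard_le_encard fun e he =>
        And.intro (hN h4 he.1 (he.2 h3)).1 (he.2 h3)) (card_star H.kuhn H.ok hQ a))).2
    exact le_trans (by exact_mod_cast h5) (le_Mb (b_one P j)).2.2
  · intro v hv e x y he hx hs
    have hj := (hG v).1 hv
    have h3 : x ∈ Q.cell v := by simp [hx]
    have h4 := hj.2 x h3 (vertex_int H.kuhn H.ok hQ hx (hj.1 h3))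
    obtain ⟨B, hB, -, h5⟩ := nice_edge H hS hQ hF he hs (hg e x y he hs)
      (hN h4 he (hs ▸ left_mem_segment ℝ x y)) h4.2.1
    have h6 := left_mem_segment ℝ x y
    have h7 := right_mem_segment ℝ x y
    obtain ⟨h8, h9⟩ := H.two' h4.1 (hB.K y (by simp)) (hB.dist_le H h6 h7) (hB.flat x h6 y h7)
    rw [hB.one y (by simp) x (by simp) (edge_ends hQ.cvx he hs).1.symm, mul_one] at h8 h9
    have h10 := rho_pos H.ok j
    have h11 := b_one P j
    refine ⟨?_, h9.trans ?_, h5.trans (ENNReal.ofReal_le_ofReal ?_)⟩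
    · rwa [div_le_iff₀' (by positivity)]
    · rw [← mul_div_assoc, le_div_iff₀ (by positivity)]
      nlinarith [mul_le_mul_of_nonneg_right (le_Mb h11).2.1 h10.le]
    · rw [← mul_div_assoc, le_div_iff₀ (by positivity)]
      nlinarith [mul_le_mul_of_nonneg_right (hθ (P.T j).b).2 h10.le]
  · rintro i hi e he hd x hx _ ⟨p, hp, rfl⟩
    have hj := (hG i).1 hi
    obtain ⟨t, ht⟩ := hc i hj
    obtain ⟨v, hv⟩ := ht.exists_mem hp
    obtain ⟨a, a', -, -, h3, hs, -⟩ := hQ.cvx.exists_segment he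
    obtain ⟨h4, h5⟩ := ratio_le H.ok j
    obtain ⟨h6, h7⟩ := H.small j
    have h10 := rho_pos H.ok j
    have h11 := b_one P j
    have h8 := hj.2 v (ht.sub hv) ((ht.mem v).1 hv).2
    by_contra h9
    rw [not_le] at h9
    generalize P.ρ j / (2 * (P.T j).b) / Mb (P.T j).b = σ at *
    have h12 := dist_triangle_left (f v) (f x) (A i p)
    rw [dist_comm (A i p) (f x)] at h12
    obtain ⟨B, hB, h13, h14⟩ := nice_edge H hS hQ hF he hs (hg e a a' he hs)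
      (h8.2.2 e he x hx (by nlinarith [ht.img H hp hv])) h8.2.1
    rw [hs] at hx hd
    have h15 := hx
    rw [segment_eq_image_lineMap] at h15
    obtain ⟨r, hr, rfl⟩ := h15
    have h15 := (eVariationOn.edist_le _ hr (left_mem_Icc.2 zero_le_one)).trans h14
    simp only [AffineMap.lineMap_apply_zero, sub_self] at h15
    rw [← h13, edist_dist, dist_zero_right, ← dist_eq_norm] at h15
    generalize AffineMap.lineMap a a' r = x at *
    have h16 : dist (f x) (B x) * (32 * (P.T j).b) ≤ P.ρ j := by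
      rcases ENNReal.ofReal_le_ofReal_iff'.1 h15 with h16 | h16
      · nlinarith [mul_le_mul_of_nonneg_right (hθ (P.T j).b).1 h10.le]
      · nlinarith
    have h17 : dist (B x) (A i p) * (16 * (P.T j).b) ≤ P.ρ j := by
      nlinarith [dist_triangle_left (B x) (A i p) (f x)]
    have h18 : dist (B x) (A i p) ≤ 10 * β := by nlinarith [dist_nonneg (x := B x) (y := A i p)]
    have h19 := low_hat H hB ht hx hp h18 (w := a) (by simp)
      (disjoint_left.1 hd (left_mem_segment ℝ a a'))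
    have h20 := low_hat H hB ht hx hp h18 (w := a') (by simp)
      (disjoint_left.1 hd (right_mem_segment ℝ a a'))
    have h21 := hB.sum1 x hx
    rw [Finset.sum_pair h3] at h21
    nlinarith
  · rintro i hi e x y he hs hx hy r hr _ ⟨p, hp, rfl⟩
    have hj := (hG i).1 hi
    obtain ⟨t, ht⟩ := hc i hj
    obtain ⟨h4, h5⟩ := ratio_le H.ok j
    obtain ⟨h6, h7⟩ := H.small j
    have h10 := rho_pos H.ok j
    have h11 := b_one P j
    have h8 := hj.2 x hx (end_int H.kuhn H.ok hQ he hs (hj.1 hx))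
    obtain ⟨B, hB, h13, -⟩ := nice_edge H hS hQ hF he hs (hg e x y he hs)
      (hN h8 he (hs ▸ left_mem_segment ℝ x y)) h8.2.1
    rw [← h13]
    by_contra h9
    rw [not_le] at h9
    generalize P.ρ j / (2 * (P.T j).b) / Mb (P.T j).b = σ at *
    have h14 := low_hat H hB ht (lineMap_mem_segment ℝ x y hr) hp
      (by nlinarith [hr.2]) (w := y) (by simp) hy
    rw [hB.hat_edge (edge_ends hQ.cvx he hs).1 hr] at h14
    nlinarith [mul_le_mul_of_nonneg_left h5 hr.1, mul_nonneg hr.1 h10.le]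
  · intro i hi
    have hj := (hG i).1 hi
    obtain ⟨t, ht⟩ := hc i hj
    refine ⟨hj.1, fun x hx => ?_, fun x hx y hy => (key H ht ht hy hx fun v hv w hw =>
      ⟨ht.dist_le H (ht.sub hv) (ht.sub hw), ht.flat _ (ht.sub hv) _ (ht.sub hw)⟩).trans ?_⟩
    · obtain ⟨v, hv⟩ := ht.exists_mem hx
      exact ⟨v, ⟨ht.sub hv, ht.K v hv⟩, (ht.img H hx hv).trans (by linarith [(H.small j).1])⟩
    · nlinarith [mul_le_mul_of_nonneg_left ((ht.flat y hy x hx).le_norm H.ok)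
        (mul_nonneg (H.est j).1 (Nat.cast_nonneg (P.T j).b))]

end G2

end P073
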