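import Vale.Agent.P073Y.Gd.Sharp
import Vale.Agent.P073Y.Gd.Mean
import Vale.Agent.P073Y.Ln.Sk
import Vale.Agent.P073Z.ACC.Cube

/-!
# The sum of the deviations on the sheet wires
-/

open Set Metric Topology Filter MeasureTheory
open scoped ENNReal NNReal

namespace P073

namespace G2

open Gd Vale.Agent.P073.HB
open Ln (vt nx)

/-- good wires of one type, and the total deviation from the linear map on the wires of the
bottom faces of the inner cubes, in the coordinates `ν` of the source and `T · + c` of the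
target, for every map `g` which is affine on the good cells and has controlled variation -/
def GOOD3 : Prop := ∀ κ₀ : ℝ → ℝ, (∀ M, 0 < κ₀ M) → ∀ K₂ : ℝ≥0,
  ∃ (τ₁ Cg : ℕ → ℝ) (c₁ : ℕ → ℝ≥0) (c₂ : ℕ → ℕ → ℝ≥0), (∀ b, 0 < τ₁ b ∧ 1 ≤ Cg b) ∧
  ∀ {Ω : Set E3} {f : E3 → E3} {F : E3 → (E3 →L[ℝ] E3)} (P : Par) (j : Fin P.N) (Q : RCx E3)
    (K₀ : Set E3) {τ β' β d : ℝ}, IsOpen Ω → P.Ok Ω → Wm Ω P j Q →
  (∀ z ∈ P.Inner j, ∀ X, IsBox X → X ⊆ ucube z → Q.Sub (P.nu j ⁻¹' X)) →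
  Measurable F → K₀ ⊆ P.K j → β' ≤ β →
  0 ≤ τ → τ ≤ τ₁ (P.T j).b → (∀ x ∈ K₀, ∀ y ∈ K₀, dist x y ≤ P.η →
    ‖f y - f x - (P.T j).A (y - x)‖ ≤ τ * ‖y - x‖) →
  (∀ x ∈ P.U j, ∀ y ∈ Ω, dist (f x) (f y) ≤ 20 * β' → dist x y ≤ d) →
  10 * (P.T j).b * P.m j * d ≤ P.η → Cg (P.T j).b * P.ρ j ≤ β' →
  (∀ e x y, Q.dim e = 1 → Q.cell e = segment ℝ x y → GoodSeg f F x (y - x)) →
  ∃ γ : Good Q f κ₀ β,
    (∀ i ∈ γ.G, Q.cell i ⊆ Fine1 P j ∧
      ∀ x ∈ Q.cell i, ∃ v ∈ Q.cell i ∩ K₀, dist (γ.A i x) (f v) ≤ β') ∧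
    ∀ (g : E3 → E3) (η : Q.ι → ℝ≥0∞) (ν : E3 ≃ᴬ[ℝ] E3) (T : E3 →L[ℝ] E3) (c : E3)
      (W : Finset (Fin 3 → ℤ)), (∀ i ∈ γ.G, EqOn g (γ.A i) (Q.cell i)) →
      (∀ e x y, Q.dim e = 1 → Q.cell e = segment ℝ x y →
        segVar g x y ≤ K₂ * segVar f x y + η e) →
      (∀ x, ν x = P.nu j x) → (W : Set (Fin 3 → ℤ)) ⊆ P.Inner j →
      P.vol j * ∑ z ∈ W, ∑ k ∈ (P.T j).Iᶜ,
          segVar (fun u => T (g (ν.symm u)) + c - T.comp (P.B j) u) (vt z) (nx z k) ≤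
        ‖T‖ₑ * (ENNReal.ofReal (P.a j) *
          (c₁ (P.T j).b * (ENNReal.ofReal τ + (P.n : ℝ≥0∞)⁻¹) * volume (P.U j) +
            c₂ (P.T j).b (P.m j) * Maj P j K₀ F ((P.T j).b * P.m j * d / P.η)) +
          P.vol j * ∑' e, {e | Q.cell e ⊆ Fine1 P j}.indicator η e)

variable {Ω : Set E3} {P : Par} {j : Fin P.N} {Q : RCx E3} {K₀ : Set E3}
  {F : E3 → (E3 →L[ℝ] E3)}

theorem calc1 {b η m n τ' : ℝ} (hb : 0 ≤ b) (hη : 0 < η) (hm : 0 < m) (hn : 0 < n)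
    (hτ : 0 < τ') : ENNReal.ofReal (6 * (b * η) ^ 3) * ENNReal.ofReal n⁻¹ *
      ENNReal.ofReal ((τ' * (η / (m * n)))⁻¹) =
      ENNReal.ofReal (6 * b ^ 3 * m / τ') * ENNReal.ofReal η ^ 2 := by
  rw [← ENNReal.ofReal_mul (by positivity), ← ENNReal.ofReal_mul (by positivity),
    ← ENNReal.ofReal_pow hη.le, ← ENNReal.ofReal_mul (by positivity)]
  congr 1
  field_simp

theorem fine_int (hP : P.Ok Ω) (u : E3 → ℝ≥0∞) : ∫⁻ x in Fine1 P j, u x ∂(μH[1]) ≤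
    ∫⁻ x in {x ∈ P.U j | P.nu j x ∈ gridLines}, u x ∂(μH[1]) :=
  lintegral_mono_set fun _ hx => ⟨fine_U hP hx.1, hx.2⟩

/-- the count of the bad cells, weighted by the volume -/
theorem bad_le (hP : P.Ok Ω) (hc : CubeApi Ω P) {τ' d : ℝ} (hτ : 0 < τ') (hτ1 : τ' ≤ 1) :
    P.vol j * (P.n : ℝ≥0∞)⁻¹ * Bad P j K₀ F τ' d ≤ (P.n : ℝ≥0∞)⁻¹ * volume (P.U j) +
      ENNReal.ofReal (6 * (P.T j).b ^ 3 * P.m j / τ') *
        Maj P j K₀ F ((P.T j).b * P.m j * d / P.η) := by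
  have hη := hc.eta_pos
  have hm := m_one hP j
  have hn : (0:ℝ) < P.n := by exact_mod_cast hP.n_pos
  have hb : (0:ℝ) ≤ (P.T j).b := Nat.cast_nonneg _
  have hne : (P.n : ℝ≥0∞)⁻¹ = ENNReal.ofReal (P.n : ℝ)⁻¹ := by
    rw [ENNReal.ofReal_inv_of_pos hn, ENNReal.ofReal_natCast]
  have hv := hc.vol_le j
  have k0 : (P.m j : ℝ) / 1 ≤ P.m j / τ' := by gcongr
  set c := ENNReal.ofReal (6 * (P.T j).b ^ 3 * P.m j / τ') with hcdef
  have c1 : ENNReal.ofReal (6 * (P.T j).b ^ 3) ≤ c := ENNReal.ofReal_le_ofReal (by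
    rw [mul_div_assoc]
    exact le_mul_of_one_le_right (by positivity) (by linarith))
  have c3 : ENNReal.ofReal (6 * (P.T j).b ^ 3 * P.m j / 1) ≤ c :=
    ENNReal.ofReal_le_ofReal (by rw [mul_div_assoc, mul_div_assoc]; gcongr)
  unfold Bad Maj
  rw [mul_add, mul_add, mul_add, mul_add c, mul_add c, add_comm _ (c * _ + c * _ + c * _)]
  refine add_le_add (add_le_add (add_le_add ?_ ?_) ?_) ?_
  · rw [← mul_assoc, ← mul_assoc]
    gcongr
    refine hv.trans ?_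
    rw [mul_pow, ← mul_assoc, ENNReal.ofReal_mul (by positivity), ENNReal.ofReal_pow hη.le]
    gcongr
  · rw [← mul_assoc, ← mul_assoc, hcdef, ← calc1 hb hη (by linarith) hn hτ, ← hne]
    exact mul_le_mul' (by gcongr; rfl) (fine_int hP _)
  · rw [← mul_assoc, ← mul_assoc]
    refine mul_le_mul_left (le_trans ?_ (mul_le_mul_left c3 _)) _
    rw [← calc1 hb hη (by linarith) hn one_pos, ← hne, one_mul]
    gcongr
    rfl
  · rw [mul_comm (P.vol j), mul_assoc, mul_comm (P.vol j)]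
    exact mul_le_mul_right (hc.count_inner j) _

theorem edge_box (z : Fin 3 → ℤ) (k : Fin 3) : segment ℝ (vt z) (nx z k) = uface z {k}ᶜ := by
  ext ξ
  rw [segment_eq_image']
  constructor
  · rintro ⟨s, hs, rfl⟩
    refine ⟨⟨fun i => ?_, fun i => ?_⟩, fun i hi => ?_⟩
    · rcases eq_or_ne i k with rfl | h <;> simp [vt, nx, *, hs.1]
    · rcases eq_or_ne i k with rfl | h <;> simp [vt, nx, *, hs.2]
    · have h : i ≠ k := by simpa using hi
      simp [vt, nx, h]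
  · rintro ⟨⟨h1, h2⟩, h3⟩
    refine ⟨ξ k - z k, ⟨sub_nonneg.2 (h1 k), sub_le_iff_le_add'.2 (h2 k)⟩, funext fun i => ?_⟩
    rcases eq_or_ne i k with rfl | h
    · simp [vt, nx]
    · simp [vt, nx, h, h3 i (by simpa using h)]

theorem edge_fin {z z' : Fin 3 → ℤ} {k k' : Fin 3} (h : (z, k) ≠ (z', k')) :
    (uface z {k}ᶜ ∩ uface z' {k'}ᶜ).Finite := by
  refine ((finite_singleton (vt z)).insert (nx z k)).subset fun ξ ⟨h1, h2⟩ => ?_
  have h3 : ∀ i, i ≠ k → ξ i = z i := fun i hi => h1.2 i (by simpa using hi)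
  suffices h4 : ∃ m : ℤ, ξ k = m by
    obtain ⟨m, hm⟩ := h4
    have h5 : (z k : ℝ) ≤ m := hm ▸ h1.1.1 k
    have h6 : (m : ℝ) ≤ z k + 1 := hm ▸ h1.1.2 k
    have h7 : m = z k ∨ m = z k + 1 := by
      have h8 : z k ≤ m := by exact_mod_cast h5
      have h9 : m ≤ z k + 1 := by exact_mod_cast h6
      omega
    rcases h7 with rfl | rfl
    · refine Or.inr (funext fun i => ?_)
      rcases eq_or_ne i k with rfl | hi
      exacts [hm, h3 i hi]
    · refine Or.inl (funext fun i => ?_)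
      rcases eq_or_ne i k with rfl | hi
      · simpa [nx, vt] using hm
      · simpa [nx, vt, hi] using h3 i hi
  rcases eq_or_ne k k' with rfl | hk
  · have h4 : z k ≠ z' k := fun h5 => h (Prod.ext (funext fun i => by
      rcases eq_or_ne i k with rfl | hi
      · exact h5
      · exact_mod_cast (h3 i hi).symm.trans (h2.2 i (by simpa using hi))) rfl)
    have a1 := h1.1.1 k
    have a2 := h1.1.2 k
    have a3 := h2.1.1 k
    have a4 := h2.1.2 k
    rcases lt_or_gt_of_ne h4 with h5 | h5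
    · have h6 : (z k : ℝ) + 1 ≤ z' k := by exact_mod_cast h5
      exact ⟨z' k, le_antisymm (by linarith) a3⟩
    · have h6 : (z' k : ℝ) + 1 ≤ z k := by exact_mod_cast h5
      exact ⟨z k, le_antisymm (by linarith) a1⟩
  · exact ⟨z' k, h2.2 k (by simpa using hk)⟩

theorem segVar_aff {T : Type} [PseudoEMetricSpace T] (φ : E3 → T) (μ : E3 →ᵃ[ℝ] E3) (x y : E3) :
    segVar (fun u => φ (μ u)) x y = segVar φ (μ x) (μ y) := by
  simp only [segVar, AffineMap.apply_lineMap]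

theorem good3 : GOOD3 := by
  intro κ₀ hκ K₂
  obtain ⟨τ₁, τ', Cg, h0, hG⟩ := good2 κ₀ hκ
  refine ⟨τ₁, Cg, fun b => (K₂ + 3) * (Cg b * b ^ 2).toNNReal, fun b m =>
    (2 * K₂ + 1) * (Cg b * b ^ 2).toNNReal * (6 * b ^ 3 * m / τ' b).toNNReal,
    fun b => ⟨(h0 b).1, (h0 b).2.2.2⟩, ?_⟩
  intro Ω f F P j Q K₀ τ β' β d hΩ hP hQ hbox hF hK hβ hτ0 hτ1 hτ hd hp hp' hg
  obtain ⟨γ, h1, h2⟩ := hG P j Q K₀ hP hQ hF hK hβ hτ0 hτ1 hτ hd hp hp' hg
  refine ⟨γ, fun i hi => ⟨(h1 i hi).1, (h1 i hi).2.1⟩, ?_⟩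
  intro g η ν T c W hA hv hν hW
  have hc := cube_thm P hΩ hP
  obtain ⟨-, t0, t1, hC⟩ := h0 (P.T j).b
  have hb := b_one P j
  have hm := m_one hP j
  have hn := n_one hP
  have ha := hc.a_pos j
  have hη := hc.eta_pos
  have hs : ∀ u, ν.symm u = P.w + P.Lam j u := fun u => by
    rw [ContinuousAffineEquiv.symm_apply_eq, hν, hc.nu_lam]
  have hseg : ∀ z k, segment ℝ (ν.symm (vt z)) (ν.symm (nx z k)) = P.nu j ⁻¹' uface z {k}ᶜ := by
    intro z k
    have h3 := image_segment ℝ ν.symm.toAffineEquiv.toAffineMap (vt z) (nx z k)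
    rw [edge_box] at h3
    refine h3.symm.trans ?_
    rw [← funext hν]
    exact ν.symm.toEquiv.image_eq_preimage_symm _
  have h3 := sharpv (γ.G : Set Q.ι) (W ×ˢ (P.T j).Iᶜ) (fun q => ν.symm (vt q.1))
    (fun q => ν.symm (nx q.1 q.2)) η hP hQ hF (mul_nonneg (zero_le_one.trans hC) hτ0) hg
    (fun i hi _ x hx y hy => by
      rw [hA i hi hx, hA i hi hy]
      exact (h1 i hi).2.2 x hx y hy) hv
    (fun q hq => by
      obtain ⟨h4, h5⟩ := Finset.mem_product.1 hq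
      rw [hseg]
      refine ⟨fun x hx => ⟨⟨q.1, hW h4, hx.1, fun i hi => hx.2 i ?_⟩, q.2, fun i hi =>
        ⟨_, hx.2 i (by simpa using hi)⟩⟩, hbox _ (hW h4) _ (Dens.isBox_uface _ _) fun _ h => h.1⟩
      rw [Finset.mem_compl, Finset.mem_singleton]
      rintro rfl
      exact Finset.mem_compl.1 h5 hi)
    (fun q _ q' _ hne => by
      rw [hseg, hseg, ← preimage_inter, ← funext hν]
      exact (edge_fin hne).preimage ν.injective.injOn)
  have h4 : ∀ z k, segVar (fun u => T (g (ν.symm u)) + c - T.comp (P.B j) u) (vt z) (nx z k) ≤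
      ‖T‖ₑ * segVar (fun x => g x - (P.T j).A x) (ν.symm (vt z)) (ν.symm (nx z k)) := by
    intro z k
    have h5 := segVar_aff (fun x => g x - (P.T j).A x) ν.symm.toAffineEquiv.toAffineMap
      (vt z) (nx z k)
    have h6 : LipschitzWith ‖T‖₊ fun y => T y + (c + T ((P.T j).A P.w)) :=
      (isometry_add_right _).lipschitz.comp T.lipschitz |>.weaken (one_mul _).le
    refine le_trans (le_of_eq ?_) ((segVar_comp_le h6.lipschitzOnWith (mapsTo_univ _ _)).trans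
      (mul_le_mul_right h5.le _))
    congr 1
    funext u
    change _ = T (g (ν.symm u) - (P.T j).A (ν.symm u)) + _
    rw [hs u]
    simp only [Par.B, ContinuousLinearMap.comp_apply, map_sub, map_add]
    abel
  have h5 : ∑ q ∈ W ×ˢ (P.T j).Iᶜ, edist (ν.symm (vt q.1)) (ν.symm (nx q.1 q.2)) ≤
      3 * (P.Inner j).encard * ENNReal.ofReal ((P.T j).b * P.a j) := by
    refine (Finset.sum_le_card_nsmul _ _ (ENNReal.ofReal ((P.T j).b * P.a j)) fun q hq => ?_).trans ?_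
    · have h6 := hc.lam_flat j (Pi.single q.2 1) fun i hi => Pi.single_eq_of_ne (by
        rintro rfl
        exact Finset.mem_compl.1 (Finset.mem_product.1 hq).2 hi) _
      rw [Pi.norm_single, norm_one, mul_one] at h6
      rw [hs, hs, edist_add_left, edist_comm, edist_dist, dist_eq_norm, ← map_sub]
      refine ENNReal.ofReal_le_ofReal (le_trans (le_of_eq ?_) h6)
      congr 2
      funext i
      rcases eq_or_ne i q.2 with rfl | hi <;> simp [nx, vt, *]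
    · rw [nsmul_eq_mul, Finset.card_product, Nat.cast_mul, mul_comm (W.card : ℝ≥0∞)]
      gcongr
      · exact_mod_cast Finset.card_le_univ _
      · refine le_trans (le_of_eq ?_) (enc_mono hW)
        rw [encard_coe_eq_coe_finsetCard]
        rfl
  have h6 := bad_le (j := j) (K₀ := K₀) (F := F) (d := d) hP hc t0 t1
  have h7 := hc.count_inner j
  rw [← Finset.sum_product']
  refine (mul_le_mul_right (Finset.sum_le_sum fun q _ => h4 q.1 q.2) _).trans ?_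
  rw [← Finset.mul_sum, mul_left_comm]
  refine mul_le_mul_right ((mul_le_mul_right h3 _).trans ?_) _
  rw [mul_add]
  refine add_le_add_left ?_ _
  have h8 : P.vol j * (∫⁻ x in Fine1 P j, ‖F x - (P.T j).A‖ₑ ∂(μH[1])) ≤
      ENNReal.ofReal (P.a j) * ENNReal.ofReal (6 * (P.T j).b ^ 3 * P.m j / τ' (P.T j).b) *
        Maj P j K₀ F ((P.T j).b * P.m j * d / P.η) := by
    refine (mul_le_mul' (hc.vol_le j) (fine_int hP _)).trans (le_trans ?_
      (mul_le_mul_right (le_add_self.trans le_self_add) _))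
    rw [← mul_assoc, ← ENNReal.ofReal_mul ha.le, ← ENNReal.ofReal_pow hη.le,
      ← ENNReal.ofReal_mul (by positivity)]
    refine mul_le_mul_left (ENNReal.ofReal_le_ofReal ?_) _
    rw [show P.a j * (6 * (P.T j).b ^ 3 * P.m j / τ' (P.T j).b) * P.η ^ 2 =
      6 * ((P.T j).b * P.η) ^ 3 / τ' (P.T j).b by rw [Par.a]; field_simp]
    exact le_div_self (by positivity) t0 t1
  have e1 : ENNReal.ofReal (((P.T j).b : ℝ) ^ 2 * P.ρ j) * ENNReal.ofReal (Cg (P.T j).b) =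
      ENNReal.ofReal (P.a j) * ENNReal.ofReal (Cg (P.T j).b * (P.T j).b ^ 2) *
        (P.n : ℝ≥0∞)⁻¹ := by
    have := rho_pos hP j
    rw [← ENNReal.ofReal_natCast P.n, ← ENNReal.ofReal_inv_of_pos (by linarith),
      ← ENNReal.ofReal_mul (by positivity), ← ENNReal.ofReal_mul ha.le,
      ← ENNReal.ofReal_mul (by positivity), Par.a, Par.ρ]
    congr 1
    field_simp
  have e2 : ENNReal.ofReal (Cg (P.T j).b * τ) * ENNReal.ofReal ((P.T j).b * P.a j) ≤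
      ENNReal.ofReal (P.a j) * ENNReal.ofReal (Cg (P.T j).b * (P.T j).b ^ 2) *
        ENNReal.ofReal τ := by
    rw [← ENNReal.ofReal_mul (by positivity), ← ENNReal.ofReal_mul ha.le,
      ← ENNReal.ofReal_mul (by positivity)]
    refine ENNReal.ofReal_le_ofReal ?_
    have h9 : 0 ≤ Cg (P.T j).b * τ * ((P.T j).b * P.a j) := by positivity
    nlinarith
  have e3 : 1 ≤ ENNReal.ofReal (Cg (P.T j).b * (P.T j).b ^ 2) :=
    ENNReal.one_le_ofReal.2 (one_le_mul_of_one_le_of_one_le hC (one_le_pow₀ hb))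
  simp only [ENNReal.coe_mul, ENNReal.coe_add, ENNReal.coe_ofNat, ENNReal.coe_one]
  change _ ≤ _ * ((_ + 3) * ENNReal.ofReal _ * _ * _ + (_ + 1) * ENNReal.ofReal _ *
    ENNReal.ofReal _ * _)
  generalize ENNReal.ofReal (Cg (P.T j).b * (P.T j).b ^ 2) = C at e1 e2 e3 ⊢
  generalize ENNReal.ofReal (6 * (P.T j).b ^ 3 * P.m j / τ' (P.T j).b) = D at h6 h8 ⊢
  generalize Maj P j K₀ F ((P.T j).b * P.m j * d / P.η) = M at h6 h8 ⊢
  generalize ENNReal.ofReal (P.a j) = a at e1 e2 h8 ⊢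
  calc _ ≤ P.vol j * (ENNReal.ofReal (Cg (P.T j).b * τ) *
          (3 * (P.Inner j).encard * ENNReal.ofReal ((P.T j).b * P.a j)) +
        K₂ * (∫⁻ x in Fine1 P j, ‖F x - (P.T j).A‖ₑ ∂(μH[1])) +
        (K₂ + 1) * ENNReal.ofReal (((P.T j).b : ℝ) ^ 2 * P.ρ j) *
          (ENNReal.ofReal (Cg (P.T j).b) * Bad P j K₀ F (τ' (P.T j).b) d)) := by
        gcongr
        exact h2
    _ = 3 * (ENNReal.ofReal (Cg (P.T j).b * τ) * ENNReal.ofReal ((P.T j).b * P.a j)) *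
          ((P.Inner j).encard * P.vol j) +
        K₂ * (P.vol j * ∫⁻ x in Fine1 P j, ‖F x - (P.T j).A‖ₑ ∂(μH[1])) +
        (K₂ + 1) * (ENNReal.ofReal (((P.T j).b : ℝ) ^ 2 * P.ρ j) *
          ENNReal.ofReal (Cg (P.T j).b)) * (P.vol j * Bad P j K₀ F (τ' (P.T j).b) d) := by ring
    _ = 3 * (ENNReal.ofReal (Cg (P.T j).b * τ) * ENNReal.ofReal ((P.T j).b * P.a j)) *
          ((P.Inner j).encard * P.vol j) +
        K₂ * (P.vol j * ∫⁻ x in Fine1 P j, ‖F x - (P.T j).A‖ₑ ∂(μH[1])) +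
        (K₂ + 1) * a * C * (P.vol j * (P.n : ℝ≥0∞)⁻¹ * Bad P j K₀ F (τ' (P.T j).b) d) := by
        rw [e1]
        ring
    _ ≤ 3 * (a * C * ENNReal.ofReal τ) * volume (P.U j) + K₂ * (a * D * M) +
        (K₂ + 1) * a * C * ((P.n : ℝ≥0∞)⁻¹ * volume (P.U j) + D * M) := by gcongr
    _ = a * (3 * C * ENNReal.ofReal τ * volume (P.U j) +
          (K₂ + 1) * C * (P.n : ℝ≥0∞)⁻¹ * volume (P.U j) +
        (K₂ * 1 * D * M + (K₂ + 1) * C * D * M)) := by ring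
    _ ≤ a * ((K₂ + 3) * C * ENNReal.ofReal τ * volume (P.U j) +
          (K₂ + 3) * C * (P.n : ℝ≥0∞)⁻¹ * volume (P.U j) +
        (K₂ * C * D * M + (K₂ + 1) * C * D * M)) := by
        gcongr
        · exact le_add_self
        · norm_num
    _ = _ := by ring

end G2

end P073
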